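import Vale.Agent.P180.H393.Ir

/-!
P180 theorem A, block A2 (helper337): irreducible characters as functions.

`K` algebraically closed of characteristic zero, `H` a finite group.
-/

set_option linter.all false

namespace Vale.Agent.P180.H337

universe u

open Finset Vale.Agent.P180.R2.H471.Hc Vale.Agent.P180.R2.H12.Sl
open Vale.Agent.P180.H393 (IsIr IsCF ev)

section

variable {K : Type u} [Field K] [IsAlgClosed K] [CharZero K] {H : Type} [Group H] [Fintype H]

/-- **Wedderburn decomposition**, in terms of characters. -/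
theorem exists_wed (K : Type u) [Field K] [IsAlgClosed K] [CharZero K] (H : Type) [Group H]
    [Fintype H] : ∃ (n : ℕ) (t : Fin n → (MonoidAlgebra K H →ₗ[K] K)),
    (∀ x y, tf x y = ∑ i, t i x * t i y) ∧
    (∀ i, IsCh K H (fun g => t i (MonoidAlgebra.single g 1))) ∧
    (∀ f : MonoidAlgebra K H, f * f = f → ∀ i, ∃ m : ℕ, t i f = m) ∧
    (∀ e : MonoidAlgebra K H, (∀ x, x * e = e * x) → e * e = e →
      ∀ i, (∀ x, t i (e * x) = 0) ∨ ∀ x, t i (e * x) = t i x) ∧
    (∀ i, ∃ f : MonoidAlgebra K H, (∀ x, x * f = f * x) ∧ f * f = f ∧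
      (∀ x, t i (f * x) = t i x) ∧ ∀ j, j ≠ i → ∀ x, t j (f * x) = 0) ∧
    (∀ i, t i 1 ≠ 0) := by
  classical
  have : NeZero (Nat.card H : K) := ⟨by
    have : Nat.card H ≠ 0 := Nat.card_pos.ne'
    exact_mod_cast this⟩
  have hfin : FiniteDimensional K (MonoidAlgebra K H) :=
    Module.Finite.equiv (MonoidAlgebra.coeffLinearEquiv K (M := H) (S := K)).symm
  have hss : IsSemisimpleRing (MonoidAlgebra K H) := by
    unfold IsSemisimpleRing
    infer_instance
  obtain ⟨n, d, hd, ⟨e⟩⟩ :=
    IsSemisimpleRing.exists_algEquiv_pi_matrix_of_isAlgClosed K (MonoidAlgebra K H)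
  refine ⟨n, fun i => (Matrix.traceLinearMap (Fin (d i)) K K) ∘ₗ
    (LinearMap.proj i) ∘ₗ e.toLinearMap, ?_, ?_, ?_, ?_, ?_, ?_⟩
  · intro x y
    rw [tf_eq_trace, trace_conj_LR e, trace_LR_pi]
    rfl
  · intro i
    let ρ : Representation K H (Fin (d i) → K) :=
      { toFun := fun g => Matrix.toLin' (e (MonoidAlgebra.single g 1) i)
        map_one' := by
          rw [← MonoidAlgebra.one_def, map_one, Pi.one_apply, Matrix.toLin'_one]
          rfl
        map_mul' := by
          intro g h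
          have h1 : (MonoidAlgebra.single (g * h) (1 : K)) =
              MonoidAlgebra.single g 1 * MonoidAlgebra.single h 1 := by
            rw [MonoidAlgebra.single_mul_single, one_mul]
          rw [h1, map_mul, Pi.mul_apply, Matrix.toLin'_mul]
          rfl }
    refine ⟨Fin (d i) → K, inferInstance, inferInstance, inferInstance, ρ, fun g => ?_⟩
    change LinearMap.trace K _ (Matrix.toLin' (e (MonoidAlgebra.single g 1) i)) = _
    rw [Matrix.trace_toLin'_eq]
    rfl
  · intro f hf i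
    have h1 : e f i * e f i = e f i := by
      rw [← Pi.mul_apply, ← map_mul, hf]
    have h2 : ∀ x, (Matrix.toLin' (e f i)) ((Matrix.toLin' (e f i)) x) =
        Matrix.toLin' (e f i) x := by
      intro x
      rw [← LinearMap.comp_apply, ← Matrix.toLin'_mul, h1]
    refine ⟨_, Eq.trans ?_ (trace_idem h2)⟩
    rw [Matrix.trace_toLin'_eq]
    rfl
  · intro z hz hzz i
    have hc : ∀ M : Matrix (Fin (d i)) (Fin (d i)) K, M * e z i = e z i * M := by
      intro M
      obtain ⟨x, hx⟩ := e.surjective (Pi.single i M)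
      have h1 := congrArg e (hz x)
      rw [map_mul, map_mul, hx] at h1
      have h2 := congrFun h1 i
      rw [Pi.mul_apply, Pi.mul_apply, Pi.single_eq_same] at h2
      exact h2
    have h1 : e z i * e z i = e z i := by
      rw [← Pi.mul_apply, ← map_mul, hzz]
    obtain ⟨c, hc'⟩ := Matrix.mem_range_scalar_of_commute_single
      (M := e z i) (fun j l _ => (hc _))
    have := hd i
    have hcc : c * c = c := by
      have h2 := h1
      rw [← hc', ← map_mul] at h2
      exact Matrix.scalar_inj.mp h2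
    rcases mul_eq_zero.mp (show c * (c - 1) = 0 by rw [mul_sub, hcc, mul_one, sub_self]) with h | h
    · left
      intro x
      change Matrix.trace (e (z * x) i) = 0
      rw [map_mul, Pi.mul_apply, ← hc', h, map_zero, zero_mul, Matrix.trace_zero]
    · right
      intro x
      change Matrix.trace (e (z * x) i) = Matrix.trace (e x i)
      rw [map_mul, Pi.mul_apply, ← hc', sub_eq_zero.mp h, map_one, one_mul]
  · intro i
    have hsym : e (e.symm (Pi.single i 1)) = Pi.single i 1 := e.apply_symm_apply _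
    refine ⟨e.symm (Pi.single i 1), ?_, ?_, ?_, ?_⟩
    · intro x
      apply e.injective
      rw [map_mul, map_mul, hsym]
      funext j
      rw [Pi.mul_apply, Pi.mul_apply]
      by_cases hj : j = i
      · subst hj
        rw [Pi.single_eq_same, one_mul, mul_one]
      · rw [Pi.single_eq_of_ne hj, zero_mul, mul_zero]
    · apply e.injective
      rw [map_mul, hsym]
      funext j
      rw [Pi.mul_apply]
      by_cases hj : j = i
      · subst hj
        rw [Pi.single_eq_same, one_mul]
      · rw [Pi.single_eq_of_ne hj, zero_mul]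
    · intro x
      change Matrix.trace (e (_ * x) i) = Matrix.trace (e x i)
      rw [map_mul, hsym, Pi.mul_apply, Pi.single_eq_same, one_mul]
    · intro j hj x
      change Matrix.trace (e (_ * x) j) = 0
      rw [map_mul, hsym, Pi.mul_apply, Pi.single_eq_of_ne hj, zero_mul, Matrix.trace_zero]
  · intro i h
    have := hd i
    change Matrix.trace (e 1 i) = 0 at h
    rw [map_one, Pi.one_apply, Matrix.trace_one, Fintype.card_fin] at h
    have h2 : d i = 0 := by exact_mod_cast h
    exact (NeZero.ne (d i)) h2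

end

section

variable {K : Type u} [Field K] {H : Type} [Group H] [Fintype H]

theorem ev_single (χ : H → K) (g : H) (a : K) :
    ev χ (MonoidAlgebra.single g a) = a * χ g := by
  classical
  unfold ev
  rw [Finset.sum_eq_single g]
  · rw [MonoidAlgebra.coeff_single, Finsupp.single_eq_same]
  · intro y _ hy
    rw [MonoidAlgebra.coeff_single, Finsupp.single_apply, if_neg hy.symm, zero_mul]
  · intro h
    exact absurd (Finset.mem_univ _) h

/-- `ev` as a linear map -/
noncomputable def evL (χ : H → K) : MonoidAlgebra K H →ₗ[K] K where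
  toFun := ev χ
  map_add' a b := by
    unfold ev
    rw [← Finset.sum_add_distrib]
    refine Finset.sum_congr rfl fun g _ => ?_
    rw [MonoidAlgebra.coeff_add, Finsupp.add_apply, add_mul]
  map_smul' c a := by
    unfold ev
    rw [RingHom.id_apply, smul_eq_mul, Finset.mul_sum]
    refine Finset.sum_congr rfl fun g _ => ?_
    rw [MonoidAlgebra.coeff_smul, Finsupp.smul_apply, smul_eq_mul, mul_assoc]

theorem evL_apply (χ : H → K) (v : MonoidAlgebra K H) : evL χ v = ev χ v := rfl

omit [Fintype H] in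
theorem lin_ext {f g : MonoidAlgebra K H →ₗ[K] K}
    (h : ∀ x, f (MonoidAlgebra.single x 1) = g (MonoidAlgebra.single x 1)) : f = g := by
  classical
  apply (MonoidAlgebra.basis H K).ext
  intro x
  rw [MonoidAlgebra.basis_apply]
  exact h x

theorem evL_of (t : MonoidAlgebra K H →ₗ[K] K) :
    evL (fun g => t (MonoidAlgebra.single g 1)) = t := by
  apply lin_ext
  intro x
  rw [evL_apply, ev_single, one_mul]

variable [IsAlgClosed K] [CharZero K]

variable (K H) in
/-- all the irreducible characters, indexed -/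
theorem exists_chars : ∃ (n : ℕ) (χ : Fin n → (H → K)),
    (∀ x y, tf x y = ∑ i, ev (χ i) x * ev (χ i) y) ∧
    (∀ i, IsCh K H (χ i)) ∧
    (∀ f : MonoidAlgebra K H, f * f = f → ∀ i, ∃ m : ℕ, ev (χ i) f = m) ∧
    (∀ e : MonoidAlgebra K H, (∀ x, x * e = e * x) → e * e = e →
      ∀ i, (∀ x, ev (χ i) (e * x) = 0) ∨ ∀ x, ev (χ i) (e * x) = ev (χ i) x) ∧
    (∀ i, ∃ f : MonoidAlgebra K H, (∀ x, x * f = f * x) ∧ f * f = f ∧
      (∀ x, ev (χ i) (f * x) = ev (χ i) x) ∧ ∀ j, j ≠ i → ∀ x, ev (χ j) (f * x) = 0) ∧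
    (∀ i, χ i 1 ≠ 0) ∧ (∀ i j, ip (χ i) (χ j) = if i = j then 1 else 0) ∧
    (∀ θ : H → K, (∀ x y, θ (x * y * x⁻¹) = θ y) → ∀ g, θ g = ∑ i, ip θ (χ i) * χ i g) := by
  classical
  obtain ⟨n, t, h1, h2, h3, h4, h5, h6⟩ := exists_wed K H
  have ht : ∀ i x, t i x = ev (fun g => t i (MonoidAlgebra.single g 1)) x := by
    intro i x
    rw [← evL_apply, evL_of]
  -- completeness
  have hcomp : ∀ θ : H → K, (∀ x y, θ (x * y * x⁻¹) = θ y) → ∀ g,
      θ g = ∑ i, ip θ (fun g => t i (MonoidAlgebra.single g 1)) * t i (MonoidAlgebra.single g 1) := by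
    intro θ hθ g
    have e1 : ∀ y : H, ∑ i, t i (MonoidAlgebra.single g 1) * t i (MonoidAlgebra.single y⁻¹ 1) =
        ∑ h : H, if h⁻¹ * g * h = y then (1 : K) else 0 := by
      intro y
      rw [← h1]
      unfold tf
      refine Finset.sum_congr rfl fun h _ => ?_
      rw [MonoidAlgebra.single_mul_single, MonoidAlgebra.single_mul_single,
        MonoidAlgebra.coeff_single, Finsupp.single_apply]
      by_cases hh : h⁻¹ * g * h = y
      · rw [if_pos hh, if_pos (by rw [← hh]; group)]
        ring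
      · rw [if_neg hh, if_neg]
        intro h'
        apply hh
        rw [mul_assoc, inv_mul_eq_iff_eq_mul, ← h', inv_mul_cancel_right, h']
    have e2 : ∑ i, ip θ (fun g => t i (MonoidAlgebra.single g 1)) *
        t i (MonoidAlgebra.single g 1) = (Nat.card H : K)⁻¹ * ∑ y, θ y *
          ∑ i, t i (MonoidAlgebra.single g 1) * t i (MonoidAlgebra.single y⁻¹ 1) := by
      unfold ip
      simp only [Finset.mul_sum, Finset.sum_mul]
      rw [Finset.sum_comm]
      refine Finset.sum_congr rfl fun y _ => Finset.sum_congr rfl fun i _ => ?_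
      ring
    rw [e2]
    simp only [e1]
    have e3 : ∑ y : H, θ y * ∑ h : H, (if h⁻¹ * g * h = y then (1 : K) else 0) =
        ∑ h : H, θ g := by
      simp only [Finset.mul_sum]
      rw [Finset.sum_comm]
      refine Finset.sum_congr rfl fun h _ => ?_
      rw [Finset.sum_eq_single (h⁻¹ * g * h)]
      · rw [if_pos rfl, mul_one]
        have := hθ h⁻¹ g
        rwa [inv_inv] at this
      · intro y _ hy
        rw [if_neg hy.symm, mul_zero]
      · intro h
        exact absurd (Finset.mem_univ _) h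
    rw [e3, Finset.sum_const, Finset.card_univ, nsmul_eq_mul, ← Nat.card_eq_fintype_card,
      inv_mul_cancel_left₀ card_ne]
  refine ⟨n, fun i g => t i (MonoidAlgebra.single g 1), ?_, h2, ?_, ?_, ?_, ?_, ?_, hcomp⟩
  · intro x y
    rw [h1]
    refine Finset.sum_congr rfl fun i _ => ?_
    rw [← ht, ← ht]
  · intro f hf i
    rw [← ht]
    exact h3 f hf i
  · intro e he hee i
    simp only [← ht]
    exact h4 e he hee i
  · intro i
    simp only [← ht]
    exact h5 i
  · intro i
    exact h6 i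
  · intro j i
    -- independence
    have hind : ∀ c : Fin n → K, (∀ g, ∑ i, c i * t i (MonoidAlgebra.single g 1) = 0) →
        ∀ i, c i = 0 := by
      intro c hc i
      have e1 : (∑ i, c i • t i) = 0 := by
        apply lin_ext
        intro x
        rw [LinearMap.sum_apply, LinearMap.zero_apply]
        simp only [LinearMap.smul_apply, smul_eq_mul]
        exact hc x
      obtain ⟨f, hf1, hf2, hf3, hf4⟩ := h5 i
      have e2 := LinearMap.congr_fun e1 (f * 1)
      rw [LinearMap.sum_apply, LinearMap.zero_apply, Finset.sum_eq_single i] at e2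
      · rw [LinearMap.smul_apply, smul_eq_mul, hf3] at e2
        exact (mul_eq_zero.mp e2).resolve_right (h6 i)
      · intro j _ hj
        rw [LinearMap.smul_apply, hf4 j hj, smul_zero]
      · intro h
        exact absurd (Finset.mem_univ _) h
    have e1 := hcomp (fun g => t j (MonoidAlgebra.single g 1)) (h2 j).conj
    have e2 := hind (fun i => ip (fun g => t j (MonoidAlgebra.single g 1))
      (fun g => t i (MonoidAlgebra.single g 1)) - if j = i then 1 else 0) (by
        intro g
        simp only [sub_mul, Finset.sum_sub_distrib, ite_mul, one_mul, zero_mul,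
          Finset.sum_ite_eq, Finset.mem_univ, if_true]
        rw [← e1 g, sub_self]) i
    exact sub_eq_zero.mp e2

theorem ip_sum_left {ι : Type*} (s : Finset ι) (c : ι → K) (φ : ι → H → K) (ψ : H → K) :
    ip (fun g => ∑ i ∈ s, c i * φ i g) ψ = ∑ i ∈ s, c i * ip (φ i) ψ := by
  unfold ip
  simp only [Finset.mul_sum, Finset.sum_mul]
  rw [Finset.sum_comm]
  refine Finset.sum_congr rfl fun i _ => Finset.sum_congr rfl fun g _ => ?_
  ring

/-- an irreducible character is one of the list -/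
theorem isIr_iff {n : ℕ} {χ : Fin n → (H → K)} (h2 : ∀ i, IsCh K H (χ i))
    (h7 : ∀ i j, ip (χ i) (χ j) = if i = j then 1 else 0)
    (h8 : ∀ θ : H → K, (∀ x y, θ (x * y * x⁻¹) = θ y) → ∀ g, θ g = ∑ i, ip θ (χ i) * χ i g)
    (ψ : H → K) : IsIr K H ψ ↔ ∃ i, χ i = ψ := by
  classical
  constructor
  · rintro ⟨hψ, hψ1⟩
    have e1 := h8 ψ hψ.conj
    choose m hm using fun i => hψ.ip_nat (h2 i)
    simp only [hm] at e1
    have e2 : ip ψ ψ = ∑ i, (m i : K) * ip (χ i) ψ := by
      conv_lhs => rw [show ψ = fun g => ∑ i, (m i : K) * χ i g from funext e1]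
      rw [ip_sum_left]
      refine Finset.sum_congr rfl fun i _ => ?_
      congr 2
      exact (funext e1).symm
    have e3 : ∑ i, m i * m i = 1 := by
      have e4 : ((∑ i, m i * m i : ℕ) : K) = 1 := by
        push_cast
        rw [← hψ1, e2]
        refine Finset.sum_congr rfl fun i _ => ?_
        rw [ip_comm, hm]
      exact_mod_cast e4
    obtain ⟨i, _, hi⟩ : ∃ i ∈ Finset.univ, m i * m i ≠ 0 := by
      apply Finset.exists_ne_zero_of_sum_ne_zero
      rw [e3]
      exact one_ne_zero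
    have e5 : m i * m i ≤ 1 := by
      rw [← e3]
      exact Finset.single_le_sum (f := fun i => m i * m i) (fun _ _ => Nat.zero_le _)
        (Finset.mem_univ i)
    have e6 : m i = 1 := by
      have : m i ≠ 0 := by
        intro h
        apply hi
        rw [h]
      nlinarith [Nat.one_le_iff_ne_zero.mpr this]
    have e7 : ∀ j, j ≠ i → m j = 0 := by
      intro j hj
      have e8 : m j * m j + m i * m i ≤ 1 := by
        rw [← e3, ← Finset.sum_pair hj (f := fun j => m j * m j)]
        exact Finset.sum_le_sum_of_subset (Finset.subset_univ _)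
      rw [e6] at e8
      have : m j * m j = 0 := by omega
      exact mul_self_eq_zero.mp this
    refine ⟨i, ?_⟩
    funext g
    rw [e1 g, Finset.sum_eq_single i]
    · rw [e6, Nat.cast_one, one_mul]
    · intro j _ hj
      rw [e7 j hj, Nat.cast_zero, zero_mul]
    · intro h
      exact absurd (Finset.mem_univ _) h
  · rintro ⟨i, rfl⟩
    exact ⟨h2 i, by rw [h7, if_pos rfl]⟩

/-- the type of the irreducible characters -/
abbrev IrK (K : Type u) [Field K] (H : Type) [Group H] [Fintype H] : Type u :=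
  {χ : H → K // IsIr K H χ}

instance finite_IrK : Finite (IrK K H) := by
  obtain ⟨n, χ, h1, h2, h3, h4, h5, h6, h7, h8⟩ := exists_chars K H
  have e : {χ : H → K | IsIr K H χ} = Set.range χ := by
    ext ψ
    exact isIr_iff h2 h7 h8 ψ
  have h9 : {χ : H → K | IsIr K H χ}.Finite := by
    rw [e]
    exact Set.finite_range χ
  exact h9.to_subtype

noncomputable instance fintype_IrK : Fintype (IrK K H) := Fintype.ofFinite _

/-- transport of sums over the list of the irreducible characters -/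
theorem sum_IrK {n : ℕ} {χ : Fin n → (H → K)} (h2 : ∀ i, IsCh K H (χ i))
    (h7 : ∀ i j, ip (χ i) (χ j) = if i = j then 1 else 0)
    (h8 : ∀ θ : H → K, (∀ x y, θ (x * y * x⁻¹) = θ y) → ∀ g, θ g = ∑ i, ip θ (χ i) * χ i g)
    {M : Type*} [AddCommMonoid M] (f : (H → K) → M) : ∑ i, f (χ i) = ∑ ψ : IrK K H, f ψ.1 := by
  classical
  refine Finset.sum_bij (fun i _ => (⟨χ i, (isIr_iff h2 h7 h8 _).mpr ⟨i, rfl⟩⟩ : IrK K H))
    (fun i _ => Finset.mem_univ _) ?_ ?_ (fun _ _ => rfl)
  · intro i _ j _ hij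
    by_contra hne
    have e1 := h7 i j
    rw [if_neg hne] at e1
    have e2 := h7 i i
    have hij' : χ i = χ j := congrArg Subtype.val hij
    rw [if_pos rfl] at e2
    rw [← hij', e2] at e1
    exact one_ne_zero e1
  · intro ψ _
    obtain ⟨i, hi⟩ := (isIr_iff h2 h7 h8 ψ.1).mp ψ.2
    exact ⟨i, Finset.mem_univ _, Subtype.ext hi⟩

/-- orthogonality -/
theorem ip_irr {χ ψ : H → K} (h : IsIr K H χ) (h' : IsIr K H ψ) (hne : χ ≠ ψ) :
    ip χ ψ = 0 := by
  obtain ⟨n, X, h1, h2, h3, h4, h5, h6, h7, h8⟩ := exists_chars K H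
  obtain ⟨i, rfl⟩ := (isIr_iff h2 h7 h8 _).mp h
  obtain ⟨j, rfl⟩ := (isIr_iff h2 h7 h8 _).mp h'
  rw [h7, if_neg]
  rintro rfl
  exact hne rfl

open scoped Classical in
/-- orthogonality -/
theorem ip_irK (χ ψ : IrK K H) : ip χ.1 ψ.1 = if χ = ψ then 1 else 0 := by
  by_cases h : χ = ψ
  · rw [if_pos h, h]
    exact ψ.2.2
  · rw [if_neg h]
    exact ip_irr χ.2 ψ.2 (fun h' => h (Subtype.ext h'))

/-- completeness -/
theorem complete {θ : H → K} (hθ : IsCF θ) (g : H) :
    θ g = ∑ χ : IrK K H, ip θ χ.1 * χ.1 g := by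
  obtain ⟨n, X, h1, h2, h3, h4, h5, h6, h7, h8⟩ := exists_chars K H
  rw [h8 θ hθ g]
  exact sum_IrK h2 h7 h8 (fun χ => ip θ χ * χ g)

/-- Parseval -/
theorem parseval {θ : H → K} (hθ : IsCF θ) (θ' : H → K) :
    ip θ θ' = ∑ χ : IrK K H, ip θ χ.1 * ip θ' χ.1 := by
  conv_lhs => rw [show θ = fun g => ∑ χ : IrK K H, ip θ χ.1 * χ.1 g from
    funext (complete hθ)]
  rw [ip_sum_left]
  refine Finset.sum_congr rfl fun χ _ => ?_
  rw [ip_comm χ.1]

/-- two class functions with the same scalar products are equal -/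
theorem ext_ip {θ θ' : H → K} (hθ : IsCF θ) (hθ' : IsCF θ')
    (h : ∀ χ : IrK K H, ip θ χ.1 = ip θ' χ.1) : θ = θ' := by
  funext g
  rw [complete hθ g, complete hθ' g]
  exact Finset.sum_congr rfl fun χ _ => by rw [h χ]

/-- second orthogonality -/
theorem second_orth [DecidableEq H] (a b : H) : ∑ χ : IrK K H, χ.1 a * χ.1 b =
    ∑ h : H, if h⁻¹ * a * h = b⁻¹ then 1 else 0 := by
  classical
  obtain ⟨n, X, h1, h2, h3, h4, h5, h6, h7, h8⟩ := exists_chars K H
  have e1 := H393.tf_single (K := K) a b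
  rw [h1] at e1
  simp only [ev_single, one_mul] at e1
  rw [← sum_IrK h2 h7 h8 (fun χ => χ a * χ b), e1]
  refine Finset.sum_congr rfl fun h _ => ?_
  by_cases hh : h⁻¹ * a * h = b⁻¹
  · rw [if_pos hh, if_pos hh]
  · rw [if_neg hh, if_neg hh]

/-- a character is a combination of the irreducible ones with natural coefficients; its norm is
the sum of the squares of the multiplicities -/
theorem exists_mult {θ : H → K} (hθ : IsCh K H θ) : ∃ m : IrK K H → ℕ,
    (∀ χ, ip θ χ.1 = m χ) ∧ (∀ g, θ g = ∑ χ, (m χ : K) * χ.1 g) ∧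
    ip θ θ = ((∑ χ, m χ ^ 2 : ℕ) : K) := by
  classical
  choose m hm using fun χ : IrK K H => hθ.ip_nat χ.2.1
  refine ⟨m, hm, ?_, ?_⟩
  · intro g
    rw [complete hθ.conj g]
    refine Finset.sum_congr rfl fun χ hχ => ?_
    rw [hm χ]
  · rw [parseval hθ.conj]
    push_cast
    refine Finset.sum_congr rfl fun χ hχ => ?_
    rw [hm χ, sq]

/-- a character is irreducible when it has norm one; conversely a nonzero character dominated by
an irreducible one is equal to it -/
theorem ev_nat {χ : H → K} (h : IsIr K H χ) {v : MonoidAlgebra K H} (hv : v * v = v) :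
    ∃ m : ℕ, ev χ v = m := by
  obtain ⟨n, X, h1, h2, h3, h4, h5, h6, h7, h8⟩ := exists_chars K H
  obtain ⟨i, rfl⟩ := (isIr_iff h2 h7 h8 _).mp h
  exact h3 v hv i

theorem ev_sum {ι : Type*} (s : Finset ι) (c : ι → K) (φ : ι → H → K) (v : MonoidAlgebra K H) :
    ev (fun g => ∑ i ∈ s, c i * φ i g) v = ∑ i ∈ s, c i * ev (φ i) v := by
  unfold ev
  simp only [Finset.mul_sum]
  rw [Finset.sum_comm]
  refine Finset.sum_congr rfl fun i _ => Finset.sum_congr rfl fun g _ => ?_
  ring

/-- values of characters at idempotents are natural numbers -/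
theorem ev_nat_ch {θ : H → K} (h : IsCh K H θ) {v : MonoidAlgebra K H} (hv : v * v = v) :
    ∃ m : ℕ, ev θ v = m := by
  classical
  obtain ⟨m, h1, h2, _⟩ := exists_mult h
  choose l hl using fun χ : IrK K H => ev_nat χ.2 hv
  refine ⟨∑ χ, m χ * l χ, ?_⟩
  rw [show θ = fun g => ∑ χ, (m χ : K) * χ.1 g from funext h2, ev_sum]
  push_cast
  refine Finset.sum_congr rfl fun χ _ => ?_
  rw [hl χ]

theorem tf_eq (x y : MonoidAlgebra K H) :
    tf x y = ∑ χ : IrK K H, ev χ.1 x * ev χ.1 y := by
  obtain ⟨n, X, h1, h2, h3, h4, h5, h6, h7, h8⟩ := exists_chars K H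
  rw [h1]
  exact sum_IrK h2 h7 h8 (fun χ => ev χ x * ev χ y)

/-- the block of an irreducible character -/
theorem ev_central {χ : H → K} (h : IsIr K H χ) {e : MonoidAlgebra K H}
    (he : ∀ x, x * e = e * x) (hee : e * e = e) :
    (∀ x, ev χ (e * x) = ev χ x) ∨ ∀ x, ev χ (e * x) = 0 := by
  obtain ⟨n, X, h1, h2, h3, h4, h5, h6, h7, h8⟩ := exists_chars K H
  obtain ⟨i, rfl⟩ := (isIr_iff h2 h7 h8 _).mp h
  exact (h4 e he hee i).symm

theorem ev_one (χ : H → K) : ev χ 1 = χ 1 := by
  rw [MonoidAlgebra.one_def, ev_single, one_mul]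

theorem one_ne {χ : H → K} (h : IsIr K H χ) : χ 1 ≠ 0 := by
  obtain ⟨n, X, h1, h2, h3, h4, h5, h6, h7, h8⟩ := exists_chars K H
  obtain ⟨i, rfl⟩ := (isIr_iff h2 h7 h8 _).mp h
  exact h6 i

/-- `χ(E) ≠ 0` iff `E` acts as the identity -/
theorem ev_central_ne_iff {χ : H → K} (h : IsIr K H χ) {e : MonoidAlgebra K H}
    (he : ∀ x, x * e = e * x) (hee : e * e = e) :
    ev χ e ≠ 0 ↔ ∀ x, ev χ (e * x) = ev χ x := by
  constructor
  · intro h1
    rcases ev_central h he hee with h2 | h2
    · exact h2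
    · exact absurd (by rw [← h2 1, mul_one]) h1
  · intro h1 h2
    have h3 := h1 1
    rw [mul_one, h2, ev_one] at h3
    exact one_ne h h3.symm

theorem ev_central_eq_zero_iff {χ : H → K} (h : IsIr K H χ) {e : MonoidAlgebra K H}
    (he : ∀ x, x * e = e * x) (hee : e * e = e) :
    ev χ e = 0 ↔ ∀ x, ev χ (e * x) = 0 := by
  constructor
  · intro h1
    rcases ev_central h he hee with h2 | h2
    · exact absurd h1 ((ev_central_ne_iff h he hee).mpr h2)
    · exact h2
  · intro h1
    rw [← mul_one e]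
    exact h1 1

/-- the central idempotent of an irreducible character -/
theorem exists_cidem {χ : H → K} (h : IsIr K H χ) :
    ∃ f : MonoidAlgebra K H, (∀ x, x * f = f * x) ∧ f * f = f ∧
      (∀ x, ev χ (f * x) = ev χ x) ∧
      ∀ ψ, IsIr K H ψ → ψ ≠ χ → ∀ x, ev ψ (f * x) = 0 := by
  obtain ⟨n, X, h1, h2, h3, h4, h5, h6, h7, h8⟩ := exists_chars K H
  obtain ⟨i, rfl⟩ := (isIr_iff h2 h7 h8 _).mp h
  obtain ⟨f, hf1, hf2, hf3, hf4⟩ := h5 i
  refine ⟨f, hf1, hf2, hf3, ?_⟩
  intro ψ hψ hne x
  obtain ⟨j, rfl⟩ := (isIr_iff h2 h7 h8 _).mp hψ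
  apply hf4
  rintro rfl
  exact hne rfl

end

section prod

variable {K : Type u} [Field K] {H H' : Type} [Group H] [Fintype H] [Group H'] [Fintype H']

theorem ip_prod [CharZero K] (α α' : H → K) (β β' : H' → K) :
    ip (fun x : H × H' => α x.1 * β x.2) (fun x : H × H' => α' x.1 * β' x.2) =
      ip α α' * ip β β' := by
  unfold ip
  rw [Fintype.sum_prod_type, Nat.card_prod]
  have h1 : ∑ x : H, ∑ y : H', α (x, y).1 * β (x, y).2 * (α' ((x, y)⁻¹ : H × H').1 *
      β' ((x, y)⁻¹ : H × H').2) = (∑ x, α x * α' x⁻¹) * ∑ y, β y * β' y⁻¹ := by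
    rw [Finset.sum_mul_sum]
    refine Finset.sum_congr rfl fun x _ => Finset.sum_congr rfl fun y _ => ?_
    simp only [Prod.fst_inv, Prod.snd_inv]
    ring
  rw [h1]
  push_cast
  rw [mul_inv]
  ring

theorem IsIr.prod [CharZero K] {α : H → K} {β : H' → K} (hα : IsIr K H α) (hβ : IsIr K H' β) :
    IsIr K (H × H') (fun x => α x.1 * β x.2) := by
  refine ⟨(hα.1.comp (MonoidHom.fst H H')).mul (hβ.1.comp (MonoidHom.snd H H')), ?_⟩
  change ip (fun x : H × H' => α x.1 * β x.2) (fun x : H × H' => α x.1 * β x.2) = 1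
  rw [ip_prod, hα.2, hβ.2, one_mul]

theorem ip_equiv (e : H ≃* H') (α β : H' → K) :
    ip (fun x : H => α (e x)) (fun x : H => β (e x)) = ip α β := by
  unfold ip
  rw [Nat.card_congr e.toEquiv, ← Equiv.sum_comp e.toEquiv]
  congr 1
  refine Finset.sum_congr rfl fun x _ => ?_
  change α (e x) * β (e x⁻¹) = α (e x) * β (e x)⁻¹
  rw [map_inv]

theorem IsIr.comp_equiv {α : H' → K} (hα : IsIr K H' α) (e : H ≃* H') :
    IsIr K H (fun x => α (e x)) :=
  ⟨hα.1.comp e.toMonoidHom, by
    have := ip_equiv e α α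
    rw [hα.2] at this
    exact this⟩

/-- transport of the irreducible characters along an isomorphism -/
def IrK.congr (e : H ≃* H') : IrK K H ≃ IrK K H' where
  toFun χ := ⟨fun x => χ.1 (e.symm x), IsIr.comp_equiv χ.2 e.symm⟩
  invFun χ := ⟨fun x => χ.1 (e x), IsIr.comp_equiv χ.2 e⟩
  left_inv χ := Subtype.ext (funext fun x => by
    change χ.1 (e.symm (e x)) = χ.1 x
    rw [e.symm_apply_apply])
  right_inv χ := Subtype.ext (funext fun x => by
    change χ.1 (e (e.symm x)) = χ.1 x
    rw [e.apply_symm_apply])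

theorem IrK.congr_apply (e : H ≃* H') (χ : IrK K H) (x : H') :
    (IrK.congr e χ).1 x = χ.1 (e.symm x) := rfl

theorem IsIr.comp_equiv_iff {α : H' → K} (e : H ≃* H') :
    IsIr K H (fun x => α (e x)) ↔ IsIr K H' α := by
  refine ⟨fun h => ?_, fun h => IsIr.comp_equiv h e⟩
  have h1 := IsIr.comp_equiv h e.symm
  have h2 : (fun x => α (e (e.symm x))) = α := funext fun x => by rw [e.apply_symm_apply]
  rw [h2] at h1
  exact h1

variable [IsAlgClosed K] [CharZero K]

/-- an irreducible character is invariant under nothing but itself: equality from the scalar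
product -/
theorem eq_of_ip_ne {χ ψ : H → K} (h : IsIr K H χ) (h' : IsIr K H ψ) (hne : ip χ ψ ≠ 0) :
    χ = ψ := by
  by_contra hcon
  exact hne (ip_irr h h' hcon)

/-- **every irreducible character of a product is a product** -/
theorem exists_prod {χ : H × H' → K} (h : IsIr K (H × H') χ) : ∃ (α : IrK K H) (β : IrK K H'),
    χ = fun x => α.1 x.1 * β.1 x.2 := by
  classical
  by_contra hcon
  push Not at hcon
  have h1 : ∀ (α : IrK K H) (β : IrK K H'), ip χ (fun x => α.1 x.1 * β.1 x.2) = 0 :=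
    fun α β => ip_irr h (IsIr.prod α.2 β.2) (hcon α β)
  -- the sum over all pairs of the products at (a, b) and at an inverse
  have h2 : ∀ x y : H × H', (∑ α : IrK K H, ∑ β : IrK K H', (α.1 x.1 * β.1 x.2) *
      (α.1 y.1 * β.1 y.2)) = ∑ h : H × H', if h⁻¹ * x * h = y⁻¹ then (1 : K) else 0 := by
    intro x y
    have e1 : (∑ α : IrK K H, ∑ β : IrK K H', (α.1 x.1 * β.1 x.2) * (α.1 y.1 * β.1 y.2)) =
        (∑ α : IrK K H, α.1 x.1 * α.1 y.1) * ∑ β : IrK K H', β.1 x.2 * β.1 y.2 := by
      rw [Finset.sum_mul_sum]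
      refine Finset.sum_congr rfl fun α _ => Finset.sum_congr rfl fun β _ => ?_
      ring
    rw [e1, second_orth, second_orth, Finset.sum_mul_sum, Fintype.sum_prod_type]
    refine Finset.sum_congr rfl fun a _ => Finset.sum_congr rfl fun b _ => ?_
    by_cases ha : a⁻¹ * x.1 * a = y.1⁻¹
    · by_cases hb : b⁻¹ * x.2 * b = y.2⁻¹
      · rw [if_pos ha, if_pos hb, if_pos (Prod.ext ha hb), one_mul]
      · rw [if_neg hb, if_neg (fun h => hb (congrArg Prod.snd h)), mul_zero]
    · rw [if_neg ha, if_neg (fun h => ha (congrArg Prod.fst h)), zero_mul]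
  have h3 : ∑ y : H × H', χ y * ∑ α : IrK K H, ∑ β : IrK K H', ((1 : K) *
      (α.1 1 * β.1 1)) * (α.1 y⁻¹.1 * β.1 y⁻¹.2) = 0 := by
    simp only [Finset.mul_sum]
    rw [Finset.sum_comm]
    refine Finset.sum_eq_zero fun α _ => ?_
    rw [Finset.sum_comm]
    refine Finset.sum_eq_zero fun β _ => ?_
    have e1 := h1 α β
    unfold ip at e1
    have e2 := (mul_eq_zero.mp e1).resolve_left (inv_ne_zero card_ne)
    calc ∑ y : H × H', χ y * (1 * (α.1 1 * β.1 1) * (α.1 y⁻¹.1 * β.1 y⁻¹.2)) =
        (α.1 1 * β.1 1) * ∑ y : H × H', χ y * (α.1 y⁻¹.1 * β.1 y⁻¹.2) := by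
          rw [Finset.mul_sum]
          exact Finset.sum_congr rfl fun y _ => by ring
      _ = 0 := by rw [e2, mul_zero]
  have h4 : ∑ y : H × H', χ y * ∑ α : IrK K H, ∑ β : IrK K H', ((1 : K) *
      (α.1 1 * β.1 1)) * (α.1 y⁻¹.1 * β.1 y⁻¹.2) = (Nat.card (H × H') : K) * χ 1 := by
    have e1 : ∀ y : H × H', (∑ α : IrK K H, ∑ β : IrK K H', ((1 : K) *
      (α.1 1 * β.1 1)) * (α.1 y⁻¹.1 * β.1 y⁻¹.2)) = if 1 = y then (Nat.card (H × H') : K) else 0 := by
      intro y
      have e2 := h2 1 y⁻¹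
      simp only [mul_one, inv_mul_cancel, inv_inv] at e2
      simp only [one_mul]
      refine e2.trans ?_
      by_cases hy : 1 = y
      · simp only [if_pos hy, Finset.sum_const, Finset.card_univ, nsmul_eq_mul, mul_one,
          Nat.card_eq_fintype_card]
      · simp only [if_neg hy, Finset.sum_const_zero]
    rw [Finset.sum_congr rfl fun y _ => by rw [e1 y]]
    simp only [mul_ite, mul_zero, Finset.sum_ite_eq, Finset.mem_univ, if_true]
    ring
  rw [h4] at h3
  rcases mul_eq_zero.mp h3 with h5 | h5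
  · exact card_ne h5
  · exact one_ne h h5

/-- the irreducible characters of a product -/
noncomputable def IrK.prod : IrK K H × IrK K H' ≃ IrK K (H × H') :=
  Equiv.ofBijective (fun x => ⟨fun g => x.1.1 g.1 * x.2.1 g.2, IsIr.prod x.1.2 x.2.2⟩) (by
    constructor
    · rintro ⟨α, β⟩ ⟨α', β'⟩ hh
      have e1 : (fun g : H × H' => α.1 g.1 * β.1 g.2) = fun g : H × H' => α'.1 g.1 * β'.1 g.2 :=
        congrArg Subtype.val hh
      have e2 := ip_prod α.1 α'.1 β.1 β'.1
      rw [← e1] at e2
      have e3 := (IsIr.prod α.2 β.2).2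
      rw [e3] at e2
      have e4 : ip α.1 α'.1 ≠ 0 := by
        intro h
        rw [h, zero_mul] at e2
        exact one_ne_zero e2
      have e5 : ip β.1 β'.1 ≠ 0 := by
        intro h
        rw [h, mul_zero] at e2
        exact one_ne_zero e2
      exact Prod.ext (Subtype.ext (eq_of_ip_ne α.2 α'.2 e4))
        (Subtype.ext (eq_of_ip_ne β.2 β'.2 e5))
    · intro χ
      obtain ⟨α, β, hh⟩ := exists_prod χ.2
      exact ⟨(α, β), Subtype.ext hh.symm⟩)

theorem IrK.prod_apply (α : IrK K H) (β : IrK K H') (g : H × H') :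
    (IrK.prod (α, β)).1 g = α.1 g.1 * β.1 g.2 := rfl

end prod

end Vale.Agent.P180.H337
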