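import Vale.Agent.P180.R2.H471.Hc6
import Vale.Agent.P180.H337.Ir

/-!
P180 theorem A, block A2 (helper337): idempotents of the group algebra and the irreducible
characters; the version for the subalgebra of a subgroup.
-/

set_option linter.all false

namespace Vale.Agent.P180.H337

universe u

open Finset Vale.Agent.P180 Vale.Agent.P180.R2.H799 Vale.Agent.P180.R2.H471.Hc
open Vale.Agent.P180.R2.H12.Sl
open Vale.Agent.P180.H393 (IsIr IsCF ev)

section

variable {K : Type u} [Field K] [IsAlgClosed K] [CharZero K] {H : Type} [Group H] [Fintype H]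

/-- dimension of `u K[H] v` -/
theorem finrank_NN_top {u v : MonoidAlgebra K H} (hu : u * u = u) (hv : v * v = v) :
    ((Module.finrank K (NN (⊤ : Subalgebra K (MonoidAlgebra K H)) u v) : ℕ) : K) =
      ∑ χ : IrK K H, ev χ.1 u * ev χ.1 v := by
  classical
  have hfin : FiniteDimensional K (MonoidAlgebra K H) := finite_MA
  rw [← tf_eq, tf_eq_trace]
  have hT : ∀ a, LR K u v a ∈ NN (⊤ : Subalgebra K (MonoidAlgebra K H)) u v := by
    intro a
    rw [LR_apply]
    exact mul_mul_mem_NN hu hv Algebra.mem_top Algebra.mem_top Algebra.mem_top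
  rw [← LinearMap.trace_restrict_eq_of_forall_mem _ _ hT, ← LinearMap.trace_id]
  congr 1
  apply LinearMap.ext
  intro a
  apply Subtype.ext
  rw [LinearMap.coe_restrict_apply, LR_apply, a.2.2.1, a.2.2.2]
  rfl

/-- **the norm of an idempotent**: `dim v K[H] v = sum of the squares of the χ(v)`, and these
are natural numbers -/
theorem exists_ev_nat {v : MonoidAlgebra K H} (hv : v * v = v) : ∃ m : IrK K H → ℕ,
    (∀ χ, ev χ.1 v = m χ) ∧
    Module.finrank K (NN (⊤ : Subalgebra K (MonoidAlgebra K H)) v v) = ∑ χ, m χ ^ 2 := by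
  classical
  choose m hm using fun χ : IrK K H => ev_nat χ.2 hv
  refine ⟨m, hm, ?_⟩
  have h1 := finrank_NN_top hv hv
  have h2 : ∑ χ : IrK K H, ev χ.1 v * ev χ.1 v = ((∑ χ, m χ ^ 2 : ℕ) : K) := by
    push_cast
    refine Finset.sum_congr rfl fun χ hχ => ?_
    rw [hm χ, sq]
  rw [h2] at h1
  exact_mod_cast h1

/-- `dim u K[H] v` for two idempotents -/
theorem exists_ev_nat₂ {u v : MonoidAlgebra K H} (hu : u * u = u) (hv : v * v = v) :
    ∃ l m : IrK K H → ℕ, (∀ χ, ev χ.1 u = l χ) ∧ (∀ χ, ev χ.1 v = m χ) ∧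
    Module.finrank K (NN (⊤ : Subalgebra K (MonoidAlgebra K H)) u v) = ∑ χ, l χ * m χ := by
  classical
  obtain ⟨l, hl, _⟩ := exists_ev_nat hu
  obtain ⟨m, hm, _⟩ := exists_ev_nat hv
  refine ⟨l, m, hl, hm, ?_⟩
  have h1 := finrank_NN_top hu hv
  have h2 : ∑ χ : IrK K H, ev χ.1 u * ev χ.1 v = ((∑ χ, l χ * m χ : ℕ) : K) := by
    push_cast
    refine Finset.sum_congr rfl fun χ hχ => ?_
    rw [hl χ, hm χ]
  rw [h2] at h1
  exact_mod_cast h1

end

section

variable {K : Type u} [Field K] {G : Type} [Group G] [Fintype G]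

/-- the group algebra of a subgroup, from the ambient one -/
noncomputable def rs (S : Subgroup G) [Fintype S] (x : MonoidAlgebra K G) :
    MonoidAlgebra K S := ∑ s : S, MonoidAlgebra.single s (x.coeff (s : G))

theorem rs_coeff (S : Subgroup G) [Fintype S] (x : MonoidAlgebra K G) (s : S) :
    (rs S x).coeff s = x.coeff (s : G) := by
  classical
  unfold rs
  rw [MonoidAlgebra.coeff_sum, Finsupp.finset_sum_apply, Finset.sum_eq_single s]
  · rw [MonoidAlgebra.coeff_single, Finsupp.single_eq_same]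
  · intro b _ hb
    rw [MonoidAlgebra.coeff_single, Finsupp.single_apply, if_neg hb]
  · intro h
    exact absurd (Finset.mem_univ s) h

/-- `rs` as a linear map -/
noncomputable def rsL (S : Subgroup G) [Fintype S] : MonoidAlgebra K G →ₗ[K] MonoidAlgebra K S where
  toFun := rs S
  map_add' a b := by
    apply MonoidAlgebra.coeff_injective
    ext s
    rw [MonoidAlgebra.coeff_add, Finsupp.add_apply, rs_coeff, rs_coeff, rs_coeff,
      MonoidAlgebra.coeff_add, Finsupp.add_apply]
  map_smul' c a := by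
    apply MonoidAlgebra.coeff_injective
    ext s
    rw [RingHom.id_apply, MonoidAlgebra.coeff_smul, Finsupp.smul_apply, rs_coeff, rs_coeff,
      MonoidAlgebra.coeff_smul, Finsupp.smul_apply]

theorem rsL_apply (S : Subgroup G) [Fintype S] (x : MonoidAlgebra K G) : rsL S x = rs S x := rfl

theorem rs_inj {S : Subgroup G} [Fintype S] {x y : MonoidAlgebra K G} (hx : x ∈ SubAlg K S)
    (hy : y ∈ SubAlg K S) (h : rs S x = rs S y) : x = y := by
  apply MonoidAlgebra.coeff_injective
  ext g
  by_cases hg : g ∈ S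
  · have := congrArg (fun z => z.coeff (⟨g, hg⟩ : S)) h
    simp only [rs_coeff] at this
    exact this
  · have h1 : x.coeff g = 0 := by
      by_contra h
      exact hg (hx g h)
    have h2 : y.coeff g = 0 := by
      by_contra h
      exact hg (hy g h)
    rw [h1, h2]

theorem rs_mul {S : Subgroup G} [Fintype S] {x y : MonoidAlgebra K G} (hx : x ∈ SubAlg K S) :
    rs S (x * y) = rs S x * rs S y := by
  classical
  apply MonoidAlgebra.coeff_injective
  ext s
  rw [rs_coeff, coeff_mul_eq, coeff_mul_eq]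
  have h1 : ∑ g : G, x.coeff g * y.coeff (g⁻¹ * s) =
      ∑ g : G, ic K (S : Set G) g * (x.coeff g * y.coeff (g⁻¹ * s)) := by
    refine Finset.sum_congr rfl fun g _ => ?_
    by_cases hg : g ∈ S
    · rw [ic_pos (show g ∈ (S : Set G) from hg), one_mul]
    · have : x.coeff g = 0 := by
        by_contra h
        exact hg (hx g h)
      rw [this, zero_mul, mul_zero]
  rw [h1, sum_ic_mul]
  refine Finset.sum_congr rfl fun g _ => ?_
  rw [rs_coeff, rs_coeff]
  rfl

theorem rs_one (S : Subgroup G) [Fintype S] : rs S (1 : MonoidAlgebra K G) = 1 := by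
  classical
  apply MonoidAlgebra.coeff_injective
  ext s
  rw [rs_coeff, MonoidAlgebra.one_def, MonoidAlgebra.one_def, MonoidAlgebra.coeff_single,
    MonoidAlgebra.coeff_single, Finsupp.single_apply, Finsupp.single_apply]
  by_cases h : (1 : S) = s
  · rw [if_pos h, if_pos (show (1 : G) = (s : G) from congrArg Subtype.val h)]
  · rw [if_neg h, if_neg (show ¬ (1 : G) = (s : G) from fun h' => h (Subtype.ext h'))]

theorem exists_rs {S : Subgroup G} [Fintype S] (z : MonoidAlgebra K S) :
    ∃ x ∈ SubAlg K S, rs S x = z := by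
  classical
  refine ⟨∑ s : S, z.coeff s • MonoidAlgebra.single (s : G) (1 : K),
    Subalgebra.sum_mem _ fun s _ => Subalgebra.smul_mem _ (single_mem_SubAlg s.2 1) _, ?_⟩
  apply MonoidAlgebra.coeff_injective
  ext s
  rw [rs_coeff, MonoidAlgebra.coeff_sum, Finsupp.finset_sum_apply, Finset.sum_eq_single s]
  · rw [MonoidAlgebra.coeff_smul, Finsupp.smul_apply, MonoidAlgebra.coeff_single,
      Finsupp.single_eq_same, smul_eq_mul, mul_one]
  · intro b _ hb
    rw [MonoidAlgebra.coeff_smul, Finsupp.smul_apply, MonoidAlgebra.coeff_single,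
      Finsupp.single_apply, if_neg (fun h => hb (Subtype.ext h)), smul_zero]
  · intro h
    exact absurd (Finset.mem_univ s) h

theorem finrank_NN_rs {S : Subgroup G} [Fintype S] {u v : MonoidAlgebra K G}
    (hu : u ∈ SubAlg K S) (hv : v ∈ SubAlg K S) :
    Module.finrank K (NN (SubAlg K S) u v) =
      Module.finrank K (NN (⊤ : Subalgebra K (MonoidAlgebra K S)) (rs S u) (rs S v)) := by
  classical
  have h1 : ∀ a ∈ NN (SubAlg K S) u v,
      rs S a ∈ NN (⊤ : Subalgebra K (MonoidAlgebra K S)) (rs S u) (rs S v) := by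
    rintro a ⟨h1, h2, h3⟩
    refine ⟨Algebra.mem_top, ?_, ?_⟩
    · rw [← rs_mul hu, h2]
    · rw [← rs_mul h1, h3]
  let F : NN (SubAlg K S) u v →ₗ[K]
      NN (⊤ : Subalgebra K (MonoidAlgebra K S)) (rs S u) (rs S v) :=
    (rsL S).restrict (fun a ha => h1 a ha)
  refine (LinearEquiv.ofBijective F ⟨?_, ?_⟩).finrank_eq
  · intro a b hab
    have h2 : rs S (a : MonoidAlgebra K G) = rs S (b : MonoidAlgebra K G) :=
      congrArg Subtype.val hab
    exact Subtype.ext (rs_inj a.2.1 b.2.1 h2)
  · rintro ⟨z, hz1, hz2, hz3⟩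
    obtain ⟨x, hx, rfl⟩ := exists_rs z
    refine ⟨⟨x, hx, ?_, ?_⟩, Subtype.ext rfl⟩
    · apply rs_inj (Subalgebra.mul_mem _ hu hx) hx
      rw [rs_mul hu, hz2]
    · apply rs_inj (Subalgebra.mul_mem _ hx hv) hx
      rw [rs_mul hx, hz3]

/-- value of a function on the subgroup at an element supported on the subgroup -/
theorem ev_rs {S : Subgroup G} [Fintype S] {x : MonoidAlgebra K G} (hx : x ∈ SubAlg K S)
    (φ : G → K) : ev (fun s : S => φ s) (rs S x) = ev φ x := by
  classical
  unfold ev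
  have h1 : ∑ g : G, x.coeff g * φ g = ∑ g : G, ic K (S : Set G) g * (x.coeff g * φ g) := by
    refine Finset.sum_congr rfl fun g _ => ?_
    by_cases hg : g ∈ S
    · rw [ic_pos (show g ∈ (S : Set G) from hg), one_mul]
    · have : x.coeff g = 0 := by
        by_contra h
        exact hg (hx g h)
      rw [this, zero_mul, mul_zero]
  rw [h1, sum_ic_mul]
  refine Finset.sum_congr rfl fun g _ => ?_
  rw [rs_coeff]

theorem rs_idem {S : Subgroup G} [Fintype S] {x : MonoidAlgebra K G} (hx : x ∈ SubAlg K S)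
    (hxx : x * x = x) : rs S x * rs S x = rs S x := by
  rw [← rs_mul hx, hxx]

/-- **the norm of an idempotent supported on a subgroup** -/
theorem exists_ev_nat_sub [IsAlgClosed K] [CharZero K] {S : Subgroup G} [Fintype S]
    {x : MonoidAlgebra K G} (hx : x ∈ SubAlg K S) (hxx : x * x = x) : ∃ m : IrK K S → ℕ,
    (∀ χ, ev χ.1 (rs S x) = m χ) ∧
    Module.finrank K (NN (SubAlg K S) x x) = ∑ χ, m χ ^ 2 := by
  rw [finrank_NN_rs hx hx]
  exact exists_ev_nat (rs_idem hx hxx)

/-- a character of a subgroup at an idempotent supported on it is a natural number -/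
theorem ev_nat_chOn [IsAlgClosed K] [CharZero K] {S : Subgroup G} {φ : G → K} (h : ChOn S φ)
    {x : MonoidAlgebra K G} (hx : x ∈ SubAlg K S) (hxx : x * x = x) : ∃ m : ℕ, ev φ x = m := by
  classical
  obtain ⟨m, hm⟩ := ev_nat_ch h (rs_idem hx hxx)
  refine ⟨m, ?_⟩
  rw [← hm]
  exact (ev_rs hx φ).symm

/-- the class function of an idempotent and the values of the characters on it -/
theorem ips_chi [CharZero K] {S : Subgroup G} {v : MonoidAlgebra K G} (hv : v ∈ SubAlg K S)
    {φ : G → K} (hφ : ∀ x ∈ S, ∀ y ∈ S, φ (x * y * x⁻¹) = φ y) :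
    ips S (chi S v) φ = ev φ v := by
  classical
  unfold ips chi ev
  have h1 : ∀ g : G, ic K (S : Set G) g * ((∑ x : G, ic K (S : Set G) x *
      v.coeff (x⁻¹ * g⁻¹ * x)) * φ g⁻¹) = ∑ x : G, ic K (S : Set G) x * (ic K (S : Set G) g *
        (v.coeff (x⁻¹ * g⁻¹ * x) * φ g⁻¹)) := by
    intro g
    rw [Finset.sum_mul, Finset.mul_sum]
    refine Finset.sum_congr rfl fun x _ => ?_
    ring
  rw [Finset.sum_congr rfl fun g _ => h1 g, Finset.sum_comm]
  have h2 : ∀ x : G, ∑ g : G, ic K (S : Set G) x * (ic K (S : Set G) g *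
      (v.coeff (x⁻¹ * g⁻¹ * x) * φ g⁻¹)) = ic K (S : Set G) x * ∑ g, v.coeff g * φ g := by
    intro x
    rw [← Finset.mul_sum]
    by_cases hx : x ∈ S
    · congr 1
      rw [← Equiv.sum_comp (Equiv.inv G), ← sum_conj x]
      refine Finset.sum_congr rfl fun g _ => ?_
      simp only [Equiv.inv_apply, inv_inv]
      have e1 : x⁻¹ * (x * g * x⁻¹) * x = g := by group
      rw [e1, ic_inv]
      by_cases hg : g ∈ S
      · rw [ic_pos (show x * g * x⁻¹ ∈ (S : Set G) from
          S.mul_mem (S.mul_mem hx hg) (S.inv_mem hx)), hφ x hx g hg, one_mul]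
      · have : v.coeff g = 0 := by
          by_contra h
          exact hg (hv g h)
        rw [this, zero_mul, mul_zero, zero_mul]
    · rw [ic_neg (show x ∉ (S : Set G) from hx), zero_mul, zero_mul]
  rw [Finset.sum_congr rfl fun x _ => h2 x, ← Finset.sum_mul, sum_ic, ← mul_assoc,
    inv_mul_cancel₀ (cardS_ne S), one_mul]

end

end Vale.Agent.P180.H337
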