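import Vale.Agent.P180.H337.Assoc

/-!
P180 theorem A, block A1a (helper337): the unit of the structure constants.
-/

set_option linter.all false

namespace Vale.Agent.P180.H337

open Vale.Agent.P180.R2.H471.Hc Finset Vale.Agent.P180.H393

universe u

section

variable {K : Type u} [Field K]

/-- the trivial character of a trivial group -/
theorem isIr_one {H : Type} [Group H] [Fintype H] [Subsingleton H] :
    IsIr K H (fun _ => 1) := by
  classical
  have hc : Nat.card H = 1 := Nat.card_eq_one_iff_unique.mpr ⟨inferInstance, ⟨1⟩⟩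
  refine ⟨⟨K, inferInstance, inferInstance, inferInstance, 1, fun h => ?_⟩, ?_⟩
  · change LinearMap.trace K K (1 : Module.End K K) = 1
    rw [LinearMap.trace_one, Module.finrank_self, Nat.cast_one]
  · unfold ip
    have : (Finset.univ : Finset H) = {1} := by
      ext x
      simp only [Finset.mem_univ, Finset.mem_singleton, true_iff]
      exact Subsingleton.elim _ _
    rw [hc, this, Finset.sum_singleton]
    simp

/-- an irreducible character of a trivial group is trivial -/
theorem isIr_trivial [CharZero K] {H : Type} [Group H] [Fintype H] [Subsingleton H] {χ : H → K}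
    (h : IsIr K H χ) : χ = fun _ => 1 := by
  classical
  have hc : Nat.card H = 1 := Nat.card_eq_one_iff_unique.mpr ⟨inferInstance, ⟨1⟩⟩
  have hu : (Finset.univ : Finset H) = {1} := by
    ext x
    simp only [Finset.mem_univ, Finset.mem_singleton, true_iff]
    exact Subsingleton.elim _ _
  obtain ⟨n, hn⟩ := h.1.one
  have h1 := h.2
  unfold ip at h1
  rw [hc, hu, Finset.sum_singleton, inv_one, hn] at h1
  have h2 : n * n = 1 := by
    have h3 : ((n * n : ℕ) : K) = 1 := by
      push_cast
      rw [← h1]
      simp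
    exact_mod_cast h3
  have h3 : n = 1 := Nat.eq_one_of_mul_eq_one_left h2
  funext x
  rw [Subsingleton.elim x 1, hn, h3, Nat.cast_one]

end

section

variable {K : Type u} [Field K] {F : Type} [Field F] [Finite F]

omit [Finite F] in
instance subsingleton_fin0 : Subsingleton ((Fin 0 → F) ≃ₗ[F] (Fin 0 → F)) :=
  ⟨fun g h => LinearEquiv.ext fun x => Subsingleton.elim _ _⟩

variable (K F) in
/-- the unit: the only irreducible character of degree zero -/
noncomputable def omOne : Om K F := ⟨0, fun _ => 1, isIr_one⟩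

theorem omOne_deg : (omOne K F).deg = 0 := rfl

variable [CharZero K]

theorem eq_omOne (a : Om K F) (h : a.deg = 0) : a = omOne K F := by
  obtain ⟨n, χ, hχ⟩ := a
  change n = 0 at h
  subst h
  have h1 : χ = fun _ => 1 := isIr_trivial hχ
  subst h1
  rfl

omit [CharZero K] in
theorem X_omOne {A : Type} [AddCommGroup A] [Module F A] (e : A ≃ₗ[F] (Fin 0 → F))
    (g : A ≃ₗ[F] A) : X (omOne K F) A g = 1 :=
  X_of (omOne K F) e g

variable [IsAlgClosed K]

open scoped Classical in
/-- scalar product of two irreducible characters of `GL(V)`, of which one has the right degree -/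
theorem ip_X' {V : Type} [AddCommGroup V] [Module F V] [Finite V] {w a : Om K F}
    (ha : Module.finrank F V = a.deg) : ip (X w V) (X a V) = if w = a then 1 else 0 := by
  by_cases hw : Module.finrank F V = w.deg
  · exact ip_X (mem_OmS.mpr hw.symm) (mem_OmS.mpr ha.symm)
  · have h1 : X w V = fun _ => 0 := funext fun g => X_zero w hw g
    rw [h1, if_neg]
    · unfold ip
      simp
    · rintro rfl
      exact hw ha

open scoped Classical in
theorem omOne_cc (a w : Om K F) : cc (omOne K F) a w = if w = a then 1 else 0 := by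
  have h0 : Nat.card ((Fin 0 → F) ≃ₗ[F] (Fin 0 → F)) = 1 :=
    Nat.card_eq_one_iff_unique.mpr ⟨inferInstance, ⟨1⟩⟩
  have hS : Subsingleton ((Fin 0 → F) →ₗ[F] (Fin a.deg → F)) :=
    ⟨fun f g => LinearMap.ext fun x => by rw [Subsingleton.elim x 0, map_zero, map_zero]⟩
  have h1 : Nat.card ((Fin 0 → F) →ₗ[F] (Fin a.deg → F)) = 1 :=
    Nat.card_eq_one_iff_unique.mpr ⟨hS, ⟨0⟩⟩
  have hu : (Finset.univ : Finset ((Fin 0 → F) ≃ₗ[F] (Fin 0 → F))) = {1} := by
    ext x
    simp only [Finset.mem_univ, Finset.mem_singleton, true_iff]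
    exact Subsingleton.elim _ _
  have hu' : (Finset.univ : Finset ((Fin 0 → F) →ₗ[F] (Fin a.deg → F))) = {0} := by
    ext x
    simp only [Finset.mem_univ, Finset.mem_singleton, true_iff]
    exact hS.elim _ _
  -- restriction is transport
  let e : (Fin a.deg → F) ≃ₗ[F] ((Fin 0 → F) × (Fin a.deg → F)) :=
    { toFun := fun y => (0, y)
      invFun := fun x => x.2
      map_add' := fun x y => by
        refine Prod.ext ?_ rfl
        exact (add_zero _).symm
      map_smul' := fun c x => by
        refine Prod.ext ?_ rfl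
        exact (smul_zero _).symm
      left_inv := fun x => rfl
      right_inv := fun x => Prod.ext (Subsingleton.elim _ _) rfl }
  have hR : ∀ b : (Fin a.deg → F) ≃ₗ[F] (Fin a.deg → F),
      Res (X w ((Fin 0 → F) × (Fin a.deg → F))) 1 b = X w (Fin a.deg → F) b := by
    intro b
    rw [Res, h1, hu', Finset.sum_singleton, Nat.cast_one, inv_one, one_mul, ← X_cg w e b]
    congr 1
    apply LinearEquiv.ext
    intro x
    rw [cg_apply, sk_apply]
    refine Prod.ext (Subsingleton.elim _ _) ?_
    change b x.2 + (0 : Fin a.deg → F) = b x.2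
    rw [add_zero]
  have h2 : ((cc (omOne K F) a w : ℕ) : K) = if w = a then 1 else 0 := by
    rw [cc_spec]
    change mu (X (omOne K F) (Fin 0 → F)) (X a (Fin a.deg → F))
      (X w ((Fin 0 → F) × (Fin a.deg → F))) = _
    rw [mu, h0, hu, Finset.sum_singleton, ← ip_X' (V := Fin a.deg → F) (w := w)
      (Module.finrank_fin_fun F), ip, Nat.cast_one, inv_one, one_mul]
    congr 1
    refine Finset.sum_congr rfl fun b _ => ?_
    rw [hR, X_omOne (LinearEquiv.refl F _), mul_one]
  by_cases h : w = a
  · rw [if_pos h] at h2 ⊢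
    exact_mod_cast h2
  · rw [if_neg h] at h2 ⊢
    exact_mod_cast h2

open scoped Classical in
theorem cc_omOne (a w : Om K F) : cc a (omOne K F) w = if w = a then 1 else 0 := by
  have h0 : Nat.card ((Fin 0 → F) ≃ₗ[F] (Fin 0 → F)) = 1 :=
    Nat.card_eq_one_iff_unique.mpr ⟨inferInstance, ⟨1⟩⟩
  have hS : Subsingleton ((Fin a.deg → F) →ₗ[F] (Fin 0 → F)) :=
    ⟨fun f g => LinearMap.ext fun x => Subsingleton.elim _ _⟩
  have h1 : Nat.card ((Fin a.deg → F) →ₗ[F] (Fin 0 → F)) = 1 :=
    Nat.card_eq_one_iff_unique.mpr ⟨hS, ⟨0⟩⟩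
  have hu : (Finset.univ : Finset ((Fin 0 → F) ≃ₗ[F] (Fin 0 → F))) = {1} := by
    ext x
    simp only [Finset.mem_univ, Finset.mem_singleton, true_iff]
    exact Subsingleton.elim _ _
  have hu' : (Finset.univ : Finset ((Fin a.deg → F) →ₗ[F] (Fin 0 → F))) = {0} := by
    ext x
    simp only [Finset.mem_univ, Finset.mem_singleton, true_iff]
    exact hS.elim _ _
  let e : (Fin a.deg → F) ≃ₗ[F] ((Fin a.deg → F) × (Fin 0 → F)) :=
    { toFun := fun y => (y, 0)
      invFun := fun x => x.1
      map_add' := fun x y => by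
        refine Prod.ext rfl ?_
        exact (add_zero _).symm
      map_smul' := fun c x => by
        refine Prod.ext rfl ?_
        exact (smul_zero _).symm
      left_inv := fun x => rfl
      right_inv := fun x => Prod.ext rfl (Subsingleton.elim _ _) }
  have hR : ∀ b : (Fin a.deg → F) ≃ₗ[F] (Fin a.deg → F),
      Res (X w ((Fin a.deg → F) × (Fin 0 → F))) b 1 = X w (Fin a.deg → F) b := by
    intro b
    rw [Res, h1, hu', Finset.sum_singleton, Nat.cast_one, inv_one, one_mul, ← X_cg w e b]
    congr 1
    apply LinearEquiv.ext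
    intro x
    rw [cg_apply, sk_apply]
    exact Prod.ext rfl (Subsingleton.elim _ _)
  have h2 : ((cc a (omOne K F) w : ℕ) : K) = if w = a then 1 else 0 := by
    rw [cc_spec]
    change mu (X a (Fin a.deg → F)) (X (omOne K F) (Fin 0 → F))
      (X w ((Fin a.deg → F) × (Fin 0 → F))) = _
    rw [mu, h0, ← ip_X' (V := Fin a.deg → F) (w := w) (Module.finrank_fin_fun F), ip,
      Nat.cast_one, inv_one, mul_one]
    congr 1
    refine Finset.sum_congr rfl fun b _ => ?_
    rw [hu, Finset.sum_singleton, hR, X_omOne (LinearEquiv.refl F _), mul_one]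
  by_cases h : w = a
  · rw [if_pos h] at h2 ⊢
    exact_mod_cast h2
  · rw [if_neg h] at h2 ⊢
    exact_mod_cast h2

end

end Vale.Agent.P180.H337
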