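import Vale.Agent.P180.H393.Cc

/-!
P180 theorem A, block A1a (helper337): associativity and units of the structure constants of
Harish-Chandra restriction.
-/

set_option linter.all false

namespace Vale.Agent.P180.H337

open Vale.Agent.P180.R2.H471.Hc Finset Vale.Agent.P180.H393

universe u

section

variable {K : Type u} [Field K] {F : Type} [Field F] [Finite F]
variable {A B D : Type} [AddCommGroup A] [Module F A] [AddCommGroup B] [Module F B]
  [AddCommGroup D] [Module F D]

omit [Finite F] in
/-- the two descriptions of a triangular automorphism of three blocks -/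
theorem cg_assoc (a : A ≃ₗ[F] A) (b : B ≃ₗ[F] B) (d : D ≃ₗ[F] D) (f : A →ₗ[F] B)
    (φ : A × B →ₗ[F] D) : cg (LinearEquiv.prodAssoc F A B D) (sk (sk a b f) d φ) =
      sk a (sk b d (φ ∘ₗ LinearMap.inr F A B)) (f.prod (φ ∘ₗ LinearMap.inl F A B)) := by
  apply LinearEquiv.ext
  rintro ⟨x, y, z⟩
  rw [cg_apply, sk_apply, sk_apply]
  refine Prod.ext rfl (Prod.ext rfl ?_)
  change d z + φ (x, y) = (d z + φ (0, y)) + φ (x, 0)
  rw [add_assoc, ← map_add, Prod.mk_add_mk, zero_add, add_zero]

/-- reindexing of the unipotent parts -/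
def homAssoc : (A →ₗ[F] B) × (A × B →ₗ[F] D) ≃ (B →ₗ[F] D) × (A →ₗ[F] B × D) where
  toFun x := (x.2 ∘ₗ LinearMap.inr F A B, x.1.prod (x.2 ∘ₗ LinearMap.inl F A B))
  invFun y := (LinearMap.fst F B D ∘ₗ y.2, (LinearMap.snd F B D ∘ₗ y.2).coprod y.1)
  left_inv x := by
    refine Prod.ext ?_ ?_
    · ext z; rfl
    · apply LinearMap.ext
      rintro ⟨z, z'⟩
      change x.2 (z, 0) + x.2 (0, z') = x.2 (z, z')
      rw [← map_add, Prod.mk_add_mk, zero_add, add_zero]
  right_inv y := by
    refine Prod.ext ?_ ?_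
    · apply LinearMap.ext
      intro z
      change (y.2 (0 : A)).2 + y.1 z = y.1 z
      rw [map_zero]
      exact zero_add _
    · apply LinearMap.ext
      intro z
      refine Prod.ext rfl ?_
      change (y.2 z).2 + y.1 (0 : B) = (y.2 z).2
      rw [map_zero, add_zero]

variable [Finite A] [Finite B] [Finite D]

omit [Finite F] in
/-- transitivity of the restriction -/
theorem res_assoc (θ : ((A × (B × D)) ≃ₗ[F] (A × (B × D))) → K) (a : A ≃ₗ[F] A)
    (b : B ≃ₗ[F] B) (d : D ≃ₗ[F] D) :
    Res (fun g => Res (fun h => θ (cg (LinearEquiv.prodAssoc F A B D) h)) g d) a b =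
      Res (fun h => Res θ a h) b d := by
  have e1 : Res (fun g => Res (fun h => θ (cg (LinearEquiv.prodAssoc F A B D) h)) g d) a b =
      (Nat.card ((A →ₗ[F] B) × (A × B →ₗ[F] D)) : K)⁻¹ * ∑ x : (A →ₗ[F] B) × (A × B →ₗ[F] D),
        θ (sk a (sk b d (homAssoc x).1) (homAssoc x).2) := by
    rw [Fintype.sum_prod_type, Nat.card_prod, Nat.cast_mul, mul_inv, mul_assoc]
    simp only [Res]
    congr 1
    rw [Finset.mul_sum]
    refine Finset.sum_congr rfl fun f _ => ?_
    congr 1
    refine Finset.sum_congr rfl fun φ _ => ?_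
    rw [cg_assoc]
    rfl
  have e2 : Res (fun h => Res θ a h) b d =
      (Nat.card ((B →ₗ[F] D) × (A →ₗ[F] B × D)) : K)⁻¹ *
        ∑ y : (B →ₗ[F] D) × (A →ₗ[F] B × D), θ (sk a (sk b d y.1) y.2) := by
    rw [Fintype.sum_prod_type, Nat.card_prod, Nat.cast_mul, mul_inv, mul_assoc]
    simp only [Res]
    congr 1
    rw [Finset.mul_sum]
  rw [e1, e2, Nat.card_congr (homAssoc (F := F) (A := A) (B := B) (D := D))]
  congr 1
  exact Equiv.sum_comp (homAssoc (F := F) (A := A) (B := B) (D := D))
    (fun y => θ (sk a (sk b d y.1) y.2))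

omit [Finite F] in
theorem Res_sum {ι : Type*} (s : Finset ι) (c : ι → K) (φ : ι → ((A × B) ≃ₗ[F] (A × B)) → K)
    (a : A ≃ₗ[F] A) (b : B ≃ₗ[F] B) :
    Res (fun g => ∑ i ∈ s, c i * φ i g) a b = ∑ i ∈ s, c i * Res (φ i) a b := by
  simp only [Res, Finset.mul_sum]
  rw [Finset.sum_comm]
  refine Finset.sum_congr rfl fun i _ => Finset.sum_congr rfl fun f _ => ?_
  ring

variable [IsAlgClosed K] [CharZero K]

/-- comparison of coefficients -/
theorem coeff_ext (c c' : Om K F → K)
    (h : ∀ g : A ≃ₗ[F] A, ∑ a ∈ OmS K F (Module.finrank F A), c a * X a A g =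
      ∑ a ∈ OmS K F (Module.finrank F A), c' a * X a A g) :
    ∀ a ∈ OmS K F (Module.finrank F A), c a = c' a := by
  classical
  have h1 : ∀ (c : Om K F → K) (a : Om K F), a ∈ OmS K F (Module.finrank F A) →
      ip (fun g : A ≃ₗ[F] A => ∑ a ∈ OmS K F (Module.finrank F A), c a * X a A g) (X a A) =
        c a := by
    intro c a ha
    have e1 : ip (fun g : A ≃ₗ[F] A => ∑ a ∈ OmS K F (Module.finrank F A), c a * X a A g)
        (X a A) = ∑ a' ∈ OmS K F (Module.finrank F A), c a' * ip (X a' A) (X a A) := by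
      unfold ip
      simp only [Finset.mul_sum, Finset.sum_mul]
      rw [Finset.sum_comm]
      refine Finset.sum_congr rfl fun i _ => Finset.sum_congr rfl fun g _ => ?_
      ring
    rw [e1, Finset.sum_eq_single a]
    · rw [ip_X ha ha, if_pos rfl, mul_one]
    · intro a' ha' hne
      rw [ip_X ha' ha, if_neg hne, mul_zero]
    · intro h
      exact absurd ha h
  intro a ha
  rw [← h1 c a ha, ← h1 c' a ha]
  congr 1
  funext g
  exact h g

/-- associativity over the exact degrees -/
theorem cc_assoc_aux (w : Om K F) {a b d : Om K F} (ha : a ∈ OmS K F (Module.finrank F A))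
    (hb : b ∈ OmS K F (Module.finrank F B)) (hd : d ∈ OmS K F (Module.finrank F D)) :
    ∑ x ∈ OmS K F (Module.finrank F (A × B)), (cc x d w : K) * cc a b x =
      ∑ y ∈ OmS K F (Module.finrank F (B × D)), (cc a y w : K) * cc b d y := by
  classical
  -- first side
  have e1 : ∀ (a' : A ≃ₗ[F] A) (b' : B ≃ₗ[F] B) (d' : D ≃ₗ[F] D),
      Res (fun g => Res (X w ((A × B) × D)) g d') a' b' =
        ∑ a ∈ OmS K F (Module.finrank F A), (∑ b ∈ OmS K F (Module.finrank F B),
          (∑ d ∈ OmS K F (Module.finrank F D), (∑ x ∈ OmS K F (Module.finrank F (A × B)),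
            (cc x d w : K) * cc a b x) * X d D d') * X b B b') * X a A a' := by
    intro a' b' d'
    have h1 : (fun g => Res (X w ((A × B) × D)) g d') = fun g =>
        ∑ x ∈ OmS K F (Module.finrank F (A × B)), (∑ d ∈ OmS K F (Module.finrank F D),
          (cc x d w : K) * X d D d') * X x (A × B) g := by
      funext g
      rw [res_eq]
      refine Finset.sum_congr rfl fun x _ => ?_
      rw [Finset.sum_mul]
      exact Finset.sum_congr rfl fun d _ => by ring
    rw [h1, Res_sum]
    simp only [res_eq, Finset.mul_sum, Finset.sum_mul]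
    rw [Finset.sum_comm]
    refine Finset.sum_congr rfl fun a _ => ?_
    rw [Finset.sum_comm]
    refine Finset.sum_congr rfl fun b _ => ?_
    rw [Finset.sum_comm]
    refine Finset.sum_congr rfl fun d _ => Finset.sum_congr rfl fun x _ => ?_
    ring
  have e2 : ∀ (a' : A ≃ₗ[F] A) (b' : B ≃ₗ[F] B) (d' : D ≃ₗ[F] D),
      Res (fun h => Res (X w (A × (B × D))) a' h) b' d' =
        ∑ a ∈ OmS K F (Module.finrank F A), (∑ b ∈ OmS K F (Module.finrank F B),
          (∑ d ∈ OmS K F (Module.finrank F D), (∑ y ∈ OmS K F (Module.finrank F (B × D)),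
            (cc a y w : K) * cc b d y) * X d D d') * X b B b') * X a A a' := by
    intro a' b' d'
    have h1 : (fun h => Res (X w (A × (B × D))) a' h) = fun h =>
        ∑ y ∈ OmS K F (Module.finrank F (B × D)), (∑ a ∈ OmS K F (Module.finrank F A),
          (cc a y w : K) * X a A a') * X y (B × D) h := by
      funext h
      rw [res_eq, Finset.sum_comm]
      refine Finset.sum_congr rfl fun y _ => ?_
      rw [Finset.sum_mul]
    rw [h1, Res_sum]
    simp only [res_eq, Finset.mul_sum, Finset.sum_mul]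
    have h2 : ∀ y ∈ OmS K F (Module.finrank F (B × D)),
        ∑ b ∈ OmS K F (Module.finrank F B), ∑ d ∈ OmS K F (Module.finrank F D),
          ∑ a ∈ OmS K F (Module.finrank F A), (cc a y w : K) * X a A a' *
            ((cc b d y : K) * X b B b' * X d D d') =
        ∑ a ∈ OmS K F (Module.finrank F A), ∑ b ∈ OmS K F (Module.finrank F B),
          ∑ d ∈ OmS K F (Module.finrank F D), (cc a y w : K) * X a A a' *
            ((cc b d y : K) * X b B b' * X d D d') := by
      intro y _
      rw [Finset.sum_congr rfl fun b _ => Finset.sum_comm, Finset.sum_comm]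
    rw [Finset.sum_congr rfl h2, Finset.sum_comm]
    refine Finset.sum_congr rfl fun a _ => ?_
    rw [Finset.sum_comm]
    refine Finset.sum_congr rfl fun b _ => ?_
    rw [Finset.sum_comm]
    refine Finset.sum_congr rfl fun d _ => Finset.sum_congr rfl fun y _ => ?_
    ring
  have e3 : ∀ (a' : A ≃ₗ[F] A) (b' : B ≃ₗ[F] B) (d' : D ≃ₗ[F] D),
      Res (fun g => Res (X w ((A × B) × D)) g d') a' b' =
        Res (fun h => Res (X w (A × (B × D))) a' h) b' d' := by
    intro a' b' d'
    rw [← res_assoc]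
    have : X w ((A × B) × D) = fun h => X w (A × (B × D))
        (cg (LinearEquiv.prodAssoc F A B D) h) := funext fun h => (X_cg w _ h).symm
    rw [this]
  have e4 : ∀ (b' : B ≃ₗ[F] B) (d' : D ≃ₗ[F] D),
      (∑ b ∈ OmS K F (Module.finrank F B),
          (∑ d ∈ OmS K F (Module.finrank F D), (∑ x ∈ OmS K F (Module.finrank F (A × B)),
            (cc x d w : K) * cc a b x) * X d D d') * X b B b') =
      ∑ b ∈ OmS K F (Module.finrank F B),
          (∑ d ∈ OmS K F (Module.finrank F D), (∑ y ∈ OmS K F (Module.finrank F (B × D)),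
            (cc a y w : K) * cc b d y) * X d D d') * X b B b' := by
    intro b' d'
    exact coeff_ext (A := A) (fun a => ∑ b ∈ OmS K F (Module.finrank F B),
          (∑ d ∈ OmS K F (Module.finrank F D), (∑ x ∈ OmS K F (Module.finrank F (A × B)),
            (cc x d w : K) * cc a b x) * X d D d') * X b B b')
      (fun a => ∑ b ∈ OmS K F (Module.finrank F B),
          (∑ d ∈ OmS K F (Module.finrank F D), (∑ y ∈ OmS K F (Module.finrank F (B × D)),
            (cc a y w : K) * cc b d y) * X d D d') * X b B b')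
      (fun a' => by rw [← e1, ← e2, e3]) a ha
  have e5 : ∀ (d' : D ≃ₗ[F] D),
      (∑ d ∈ OmS K F (Module.finrank F D), (∑ x ∈ OmS K F (Module.finrank F (A × B)),
            (cc x d w : K) * cc a b x) * X d D d') =
      ∑ d ∈ OmS K F (Module.finrank F D), (∑ y ∈ OmS K F (Module.finrank F (B × D)),
            (cc a y w : K) * cc b d y) * X d D d' := by
    intro d'
    exact coeff_ext (A := B) (fun b =>
          ∑ d ∈ OmS K F (Module.finrank F D), (∑ x ∈ OmS K F (Module.finrank F (A × B)),
            (cc x d w : K) * cc a b x) * X d D d')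
      (fun b => ∑ d ∈ OmS K F (Module.finrank F D), (∑ y ∈ OmS K F (Module.finrank F (B × D)),
            (cc a y w : K) * cc b d y) * X d D d') (fun b' => e4 b' d') b hb
  exact coeff_ext (A := D) (fun d => ∑ x ∈ OmS K F (Module.finrank F (A × B)),
            (cc x d w : K) * cc a b x)
      (fun d => ∑ y ∈ OmS K F (Module.finrank F (B × D)), (cc a y w : K) * cc b d y) e5 d hd

end

section

variable {K : Type u} [Field K] {F : Type} [Field F] [Finite F] [IsAlgClosed K] [CharZero K]

theorem finite_OmW (N : ℕ) : {w : Om K F | w.deg ≤ N}.Finite := by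
  have : {w : Om K F | w.deg ≤ N} ⊆ ⋃ n ∈ Finset.range (N + 1), (OmS K F n : Set (Om K F)) := by
    intro w hw
    simp only [Set.mem_iUnion]
    exact ⟨w.deg, Finset.mem_range.mpr (Nat.lt_succ_of_le hw), mem_OmS.mpr rfl⟩
  refine Set.Finite.subset ?_ this
  exact Set.Finite.biUnion (Finset.finite_toSet _) fun n _ => Finset.finite_toSet _

variable (K F) in
/-- the irreducible characters of degree at most `N` -/
noncomputable def OmW (N : ℕ) : Finset (Om K F) := (finite_OmW N).toFinset

theorem mem_OmW {N : ℕ} {w : Om K F} : w ∈ OmW K F N ↔ w.deg ≤ N := by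
  rw [OmW, Set.Finite.mem_toFinset]
  rfl

/-- a sum over bounded degrees supported in one degree -/
theorem sum_OmW {N n : ℕ} (hn : n ≤ N) {M : Type*} [AddCommMonoid M] {f : Om K F → M}
    (hf : ∀ x, f x ≠ 0 → x.deg = n) : ∑ x ∈ OmW K F N, f x = ∑ x ∈ OmS K F n, f x := by
  symm
  apply Finset.sum_subset
  · intro x hx
    rw [mem_OmW, mem_OmS.mp hx]
    exact hn
  · intro x _ hx
    by_contra h
    exact hx (mem_OmS.mpr (hf x h))

/-- **Associativity.** -/
theorem cc_assoc (a b d w : Om K F) (N : ℕ) (hN : a.deg + b.deg + d.deg ≤ N) :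
    ∑ x ∈ OmW K F N, cc a b x * cc x d w = ∑ y ∈ OmW K F N, cc b d y * cc a y w := by
  have h1 : ∑ x ∈ OmW K F N, cc a b x * cc x d w =
      ∑ x ∈ OmS K F (a.deg + b.deg), cc a b x * cc x d w :=
    sum_OmW (by omega) fun x hx => cc_deg (fun h => hx (by rw [h, zero_mul]))
  have h2 : ∑ y ∈ OmW K F N, cc b d y * cc a y w =
      ∑ y ∈ OmS K F (b.deg + d.deg), cc b d y * cc a y w :=
    sum_OmW (by omega) fun x hx => cc_deg (fun h => hx (by rw [h, zero_mul]))
  rw [h1, h2]
  have h3 := cc_assoc_aux (A := Fin a.deg → F) (B := Fin b.deg → F) (D := Fin d.deg → F) w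
    (a := a) (b := b) (d := d) (mem_OmS.mpr (Module.finrank_fin_fun F).symm)
    (mem_OmS.mpr (Module.finrank_fin_fun F).symm) (mem_OmS.mpr (Module.finrank_fin_fun F).symm)
  rw [finrank_prod', finrank_prod', Module.finrank_fin_fun, Module.finrank_fin_fun,
    Module.finrank_fin_fun] at h3
  have h4 : ((∑ x ∈ OmS K F (a.deg + b.deg), cc a b x * cc x d w : ℕ) : K) =
      ((∑ y ∈ OmS K F (b.deg + d.deg), cc b d y * cc a y w : ℕ) : K) := by
    push_cast
    rw [Finset.sum_congr rfl fun x _ => mul_comm (cc a b x : K) (cc x d w : K),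
      Finset.sum_congr rfl fun y _ => mul_comm (cc b d y : K) (cc a y w : K)]
    exact h3
  exact_mod_cast h4

end

end Vale.Agent.P180.H337
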