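import Vale.Agent.P180.H337.Cug
import Vale.Agent.P180.H386.Brx
import Vale.Agent.P180.H386.ResGL
import Vale.Agent.P180.H951.Dec

/-!
P180 theorem B, block B2b (helper337): the Brauer image of a block with a homogeneous defect group
is killed by the average of the centraliser of `x` in the unipotent radical.
-/

set_option linter.all false

namespace Vale.Agent.P180.H337.Ecu

open Module Subgroup Vale.Agent.P180 Vale.Agent.P180.R2.H799 Vale.Agent.P180.H768.Gd
  Vale.Agent.P180.H337 Vale.Agent.P180.H386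
open Vale.Agent.P180.R2.H954.Hc (KK toKK)
open Vale.Agent.P180.H393 (PB UB sk sk_apply)
open Vale.Agent.P180.H951 (HomOn)

universe u

open scoped Classical

section

variable {k : Type u} [Field k] {p : ℕ} [hp : Fact p.Prime] [CharP k p]
variable {F : Type} [Field F] [Finite F]
variable {A B : Type} [AddCommGroup A] [Module F A] [AddCommGroup B] [Module F B]
  [Finite A] [Finite B]

omit [Finite F] [Finite A] [Finite B] in
theorem hm_of {V : Type} [AddCommGroup V] [Module F V] {R : Subgroup (V ≃ₗ[F] V)}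
    (h : HomOn R ⊤) : Hm R := by
  intro P hP
  rcases h.2 P hP with h1 | h1
  · exact Or.inl fun w => h1 w trivial
  · exact Or.inr fun w => h1 w trivial

omit [Finite F] [Finite A] [Finite B] in
/-- the second factor as a subspace -/
def sB (F A B : Type) [Field F] [AddCommGroup A] [Module F A] [AddCommGroup B] [Module F B] :
    Submodule F (A × B) := LinearMap.ker (LinearMap.fst F A B)

omit [Finite F] [Finite A] [Finite B] in
theorem mem_sB {v : A × B} : v ∈ sB F A B ↔ v.1 = 0 := Iff.rfl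

omit [Finite F] [Finite A] [Finite B] in
theorem mem_UB_iff' {g : (A × B) ≃ₗ[F] (A × B)} : g ∈ UB (F := F) A B ↔
    (∀ w ∈ sB F A B, g w = w) ∧ ∀ v, g v - v ∈ sB F A B := by
  constructor
  · rintro ⟨f, rfl⟩
    refine ⟨fun w hw => ?_, fun v => ?_⟩
    · have h1 : w.1 = 0 := hw
      rw [sk_apply, h1]
      refine Prod.ext h1.symm ?_
      change w.2 + f 0 = w.2
      rw [map_zero, add_zero]
    · change (sk 1 1 f v - v).1 = 0
      rw [sk_apply, Prod.fst_sub]
      exact sub_self _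
  · rintro ⟨h1, h2⟩
    refine ⟨(LinearMap.snd F A B) ∘ₗ (g : (A × B) →ₗ[F] (A × B)) ∘ₗ LinearMap.inl F A B, ?_⟩
    apply LinearEquiv.ext
    rintro ⟨a, b⟩
    have h3 : g (0, b) = (0, b) := h1 (0, b) rfl
    have h4 : (g (a, 0)).1 = a := by
      have h5 : (g (a, 0) - (a, 0)).1 = 0 := h2 (a, 0)
      rw [Prod.fst_sub, sub_eq_zero] at h5
      exact h5
    have h5 : ((a, b) : A × B) = (a, 0) + (0, b) := by
      rw [Prod.mk_add_mk, add_zero, zero_add]
    rw [h5, map_add, h3, sk_apply]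
    refine Prod.ext ?_ ?_
    · change (g (a, 0)).1 + 0 = a + 0
      rw [h4]
    · change (g (a, 0)).2 + b = (0 + b) + (g (a + 0, 0)).2
      rw [add_zero, zero_add, add_comm]

omit [Finite F] [Finite A] [Finite B] in
theorem PB_stable {x : (A × B) ≃ₗ[F] (A × B)} (hx : x ∈ PB (F := F) A B) :
    ∀ w ∈ sB F A B, x w ∈ sB F A B := by
  obtain ⟨a, b, f, rfl⟩ := hx
  intro w hw
  have h1 : w.1 = 0 := hw
  change (sk a b f w).1 = 0
  rw [sk_apply, h1]
  exact map_zero a

/-- **(B2b)** -/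
theorem cusp_gl [Fintype ((A × B) ≃ₗ[F] (A × B))] (hpF : ¬ p ∣ Nat.card F)
    (hA : 0 < finrank F A) (hB : 0 < finrank F B)
    {R : Subgroup ((A × B) ≃ₗ[F] (A × B))} (hR : HomOn R ⊤)
    {a g : MonoidAlgebra k ((A × B) ≃ₗ[F] (A × B))} (ha : a ∈ Fix (cj k _) R)
    (hg : g = tr (cj k _) R ⊤ a) (hgg : g * g = g) {x : (A × B) ≃ₗ[F] (A × B)}
    [Fintype (centralizer ({x} : Set ((A × B) ≃ₗ[F] (A × B))))]
    (hx : x ∈ PB (F := F) A B) (hx1 : x ≠ 1) (hxp : ∃ n : ℕ, x ^ p ^ n = 1) :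
    BN.av k ((cU (UB (F := F) A B) x).subgroupOf
        (centralizer ({x} : Set ((A × B) ≃ₗ[F] (A × B))))) *
      rs (centralizer ({x} : Set ((A × B) ≃ₗ[F] (A × B)))) g = 0 := by
  by_cases hex : ∃ h, h⁻¹ * x * h ∈ R
  · obtain ⟨h, hh⟩ := hex
    have hnA : Nontrivial A := Module.finrank_pos_iff.1 hA
    have hnB : Nontrivial B := Module.finrank_pos_iff.1 hB
    have h0 : sB F A B ≠ ⊥ := by
      obtain ⟨b, hb⟩ := exists_ne (0 : B)
      exact (Submodule.ne_bot_iff _).2 ⟨(0, b), rfl, fun h => hb (congrArg Prod.snd h)⟩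
    have h1 : sB F A B ≠ ⊤ := by
      obtain ⟨a, ha⟩ := exists_ne (0 : A)
      intro h
      have : ((a, 0) : A × B) ∈ sB F A B := by rw [h]; trivial
      exact ha this
    obtain ⟨𝒱, ⟨h2, h3⟩, h4⟩ := exists_sys (V := A × B) hp.out hpF (hm_of hR) hx1 hxp hh
      (PB_stable hx) h0 h1 (U := (cU (UB (F := F) A B) x).subgroupOf
        (centralizer ({x} : Set ((A × B) ≃ₗ[F] (A × B))))) (fun y => by
          rw [Subgroup.mem_subgroupOf, ← mem_UB_iff']
          constructor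
          · intro h; exact h.1
          · intro h; exact ⟨h, y.2⟩)
    exact cusp_block hxp ha hg hgg 𝒱 h4 h2 h3
  · have hE : IsEmpty (XX R x) := ⟨fun q => hex ⟨q.1.out, (smul_eq_iff R).1 q.2⟩⟩
    rw [hg, rs_tr hxp ha, Finset.univ_eq_empty, Finset.sum_empty, mul_zero]

/-- **(B2b)** with the lift over the Witt vectors -/
theorem exists_E_cusp [IsAlgClosed k] [Fintype ((A × B) ≃ₗ[F] (A × B))] (hpF : ¬ p ∣ Nat.card F)
    (hA : 0 < finrank F A) (hB : 0 < finrank F B)
    {R : Subgroup ((A × B) ≃ₗ[F] (A × B))} (hR : HomOn R ⊤)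
    {a g : MonoidAlgebra k ((A × B) ≃ₗ[F] (A × B))} (ha : a ∈ Fix (cj k _) R)
    (hg : g = tr (cj k _) R ⊤ a) (hgg : g * g = g) {x : (A × B) ≃ₗ[F] (A × B)}
    [Fintype (centralizer ({x} : Set ((A × B) ≃ₗ[F] (A × B))))]
    (hx : x ∈ PB (F := F) A B) (hx1 : x ≠ 1) (hxp : ∃ n : ℕ, x ^ p ^ n = 1) :
    ∃ E : MonoidAlgebra (WittVector p k) (centralizer ({x} : Set ((A × B) ≃ₗ[F] (A × B)))),
      E * E = E ∧ (∀ y, y * E = E * y) ∧
      MonoidAlgebra.mapRingHom _ (WittVector.constantCoeff (p := p) (R := k)) E =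
        rs (centralizer ({x} : Set ((A × B) ≃ₗ[F] (A × B)))) g ∧
      BN.av k ((cU (UB (F := F) A B) x).subgroupOf
        (centralizer ({x} : Set ((A × B) ≃ₗ[F] (A × B))))) *
        MonoidAlgebra.mapRingHom _ (WittVector.constantCoeff (p := p) (R := k)) E = 0 := by
  have hgF : g ∈ Fix (cj k _) ⊤ := by rw [hg]; exact tr_mem_Fix ha
  obtain ⟨E, h1, h2, h3⟩ := exists_E hxp hgF hgg
  exact ⟨E, h1, h2, h3, by rw [h3]; exact cusp_gl hpF hA hB hR ha hg hgg hx hx1 hxp⟩

end

end Vale.Agent.P180.H337.Ecu
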