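import Vale.Agent.P180.H337.Ecu

/-!
P180 theorem B, block B2b (helper337): the parabolic system of the centraliser of an element of a
homogeneous group.
-/

set_option linter.all false

namespace Vale.Agent.P180.H337.Ecu

open Module Polynomial Vale.Agent.P180.R2.H799

section Irr

variable {F V : Type*} [Field F] [AddCommGroup V] [Module F V]

theorem aeval_conj (x g : V ≃ₗ[F] V) (a : F[X]) (v : V) :
    aeval (x.toLinearMap : End F V) a (g v) = g (aeval ((g⁻¹ * x * g).toLinearMap : End F V) a v) := by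
  have h1 : ∀ (n : ℕ) (v : V), ((x.toLinearMap : End F V) ^ n) (g v) =
      g ((((g⁻¹ * x * g).toLinearMap : End F V) ^ n) v) := by
    intro n
    induction n with
    | zero => intro v; rfl
    | succ n ih =>
      intro v
      rw [pow_succ, pow_succ, End.mul_apply, End.mul_apply]
      have h2 : (x.toLinearMap : End F V) (g v) = g ((g⁻¹ * x * g).toLinearMap v) := by
        change x (g v) = g (g⁻¹ (x (g v)))
        exact (g.apply_symm_apply _).symm
      rw [h2, ih]
  induction a using Polynomial.induction_on' with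
  | add a b ha hb => rw [map_add, map_add, LinearMap.add_apply, LinearMap.add_apply, ha, hb, map_add]
  | monomial n c =>
    rw [aeval_monomial, aeval_monomial, End.mul_apply, End.mul_apply, h1]
    rw [Module.algebraMap_end_apply, Module.algebraMap_end_apply, map_smul]

theorem aeval_mem {D : Subgroup (V ≃ₗ[F] V)} {y : V ≃ₗ[F] V} (hy : y ∈ D) (a : F[X]) :
    aeval (y.toLinearMap : End F V) a ∈ Submodule.span F
      (Set.range fun q : D => ((q : V ≃ₗ[F] V).toLinearMap : End F V)) := by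
  induction a using Polynomial.induction_on' with
  | add a b ha hb => rw [map_add]; exact Submodule.add_mem _ ha hb
  | monomial n c =>
    rw [aeval_monomial, ← Algebra.smul_def]
    apply Submodule.smul_mem
    apply Submodule.subset_span
    refine ⟨⟨y ^ n, D.pow_mem hy n⟩, ?_⟩
    have h1 : ∀ n : ℕ, ((y ^ n : V ≃ₗ[F] V).toLinearMap : End F V) = (y.toLinearMap : End F V) ^ n := by
      intro n
      induction n with
      | zero => rfl
      | succ n ih =>
        rw [pow_succ, pow_succ, ← ih]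
        rfl
    exact h1 n

/-- each linear combination of elements of `D` is zero or injective -/
def Hm (D : Subgroup (V ≃ₗ[F] V)) : Prop :=
  ∀ P ∈ Submodule.span F (Set.range fun q : D => ((q : V ≃ₗ[F] V).toLinearMap : End F V)),
    (∀ w, P w = 0) ∨ ∀ w, P w = 0 → w = 0

theorem irr_minpoly [Nontrivial V] [FiniteDimensional F V] {D : Subgroup (V ≃ₗ[F] V)} (hD : Hm D)
    {x g : V ≃ₗ[F] V} (hx : g⁻¹ * x * g ∈ D) :
    Irreducible (minpoly F (x.toLinearMap : End F V)) := by
  have hint : IsIntegral F (x.toLinearMap : End F V) := Algebra.IsIntegral.isIntegral _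
  have hdich : ∀ a : F[X], (∀ w, aeval (x.toLinearMap : End F V) a w = 0) ∨
      ∀ w, aeval (x.toLinearMap : End F V) a w = 0 → w = 0 := by
    intro a
    have hw : ∀ w : V, w = g (g⁻¹ w) := fun w => (g.apply_symm_apply w).symm
    rcases hD _ (aeval_mem hx a) with h | h
    · left
      intro w
      rw [hw w, aeval_conj, h, map_zero]
    · right
      intro w h1
      rw [hw w, aeval_conj] at h1
      have h2 := h _ ((map_eq_zero_iff g g.injective).1 h1)
      rw [hw w, h2, map_zero]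
  have hne := minpoly.ne_zero hint
  refine ⟨minpoly.not_isUnit F _, fun a b hab => ?_⟩
  have h0 : aeval (x.toLinearMap : End F V) a * aeval (x.toLinearMap : End F V) b = 0 := by
    rw [← map_mul, ← hab, minpoly.aeval]
  have key : ∀ a b : F[X], minpoly F (x.toLinearMap : End F V) = a * b →
      aeval (x.toLinearMap : End F V) b = 0 → IsUnit a := by
    intro a b hab hb
    obtain ⟨c, hc⟩ := minpoly.dvd F _ hb
    rw [hc] at hab
    have h1 : minpoly F (x.toLinearMap : End F V) * 1 =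
        minpoly F (x.toLinearMap : End F V) * (a * c) := by
      rw [mul_one]
      conv_lhs => rw [hab]
      ring
    have h2 := mul_left_cancel₀ hne h1
    exact IsUnit.of_mul_eq_one _ h2.symm
  rcases hdich a with h | h
  · right
    refine key b a (by rw [hab, mul_comm]) ?_
    ext w
    exact h w
  · left
    refine key a b hab ?_
    ext w
    exact h _ (LinearMap.congr_fun h0 w)

end Irr

section Main

variable {F V : Type} [Field F] [Finite F] [AddCommGroup V] [Module F V] [Finite V] [Nontrivial V]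

/-- **(B2b-ii)** -/
theorem exists_sys {p : ℕ} (hp : p.Prime) (hpF : ¬ p ∣ Nat.card F) {D : Subgroup (V ≃ₗ[F] V)}
    (hD : Hm D) {x : V ≃ₗ[F] V} (hx1 : x ≠ 1) (hxp : ∃ n : ℕ, x ^ p ^ n = 1)
    {g : V ≃ₗ[F] V} (hg : g⁻¹ * x * g ∈ D) {W : Submodule F V} (hW : ∀ w ∈ W, x w ∈ W)
    (h0 : W ≠ ⊥) (h1 : W ≠ ⊤) {U : Subgroup (Subgroup.centralizer ({x} : Set (V ≃ₗ[F] V)))}
    (hU : ∀ g : Subgroup.centralizer ({x} : Set (V ≃ₗ[F] V)), g ∈ U ↔
      (∀ w ∈ W, (g : V ≃ₗ[F] V) w = w) ∧ ∀ v, (g : V ≃ₗ[F] V) v - v ∈ W) :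
    ∃ 𝒱 : ParSys p (Subgroup.centralizer ({x} : Set (V ≃ₗ[F] V))), (U ∈ 𝒱.car ∧ U ≠ ⊥) ∧
      ∀ U ∈ 𝒱.car, U ≠ ⊥ →
      ∃ z ∈ Subgroup.normalizer (U : Set (Subgroup.centralizer ({x} : Set (V ≃ₗ[F] V)))),
      (∀ y ∈ Subgroup.normalizer (U : Set (Subgroup.centralizer ({x} : Set (V ≃ₗ[F] V)))),
        z * y * z⁻¹ * y⁻¹ ∈ U) ∧ (∃ m : ℕ, z ^ p ^ m = 1) ∧
      ∀ h : V ≃ₗ[F] V, h⁻¹ * x * h ∈ D → h⁻¹ * z * h ∉ D := by
  obtain ⟨n, hn⟩ := hxp
  set X : End F V := x.toLinearMap with hX
  have hirr : Irreducible (minpoly F X) := irr_minpoly hD hg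
  have hint : IsIntegral F X := Algebra.IsIntegral.isIntegral _
  have hfact : Fact (Irreducible (minpoly F X)) := ⟨hirr⟩
  let φ : AdjoinRoot (minpoly F X) →+* End F V :=
    Ideal.Quotient.lift (Ideal.span {minpoly F X}) (aeval X : F[X] →ₐ[F] End F V).toRingHom (by
      intro a ha
      obtain ⟨b, rfl⟩ := Ideal.mem_span_singleton.1 ha
      change aeval X (minpoly F X * b) = 0
      rw [map_mul, minpoly.aeval, zero_mul])
  have hφ : ∀ a : F[X], φ (AdjoinRoot.mk (minpoly F X) a) = aeval X a := fun a => rfl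
  letI : Module (AdjoinRoot (minpoly F X)) V := Module.compHom V φ
  have hsm : ∀ (e : AdjoinRoot (minpoly F X)) (v : V), e • v = φ e v := fun e v => rfl
  haveI : IsScalarTower F (AdjoinRoot (minpoly F X)) V := ⟨fun r e v => by
    obtain ⟨a, rfl⟩ := AdjoinRoot.mk_surjective e
    rw [hsm, hsm, AdjoinRoot.smul_mk, hφ, hφ, map_smul, LinearMap.smul_apply]⟩
  have hroot : ∀ v, x v = AdjoinRoot.root (minpoly F X) • v := by
    intro v
    rw [hsm]
    have : φ (AdjoinRoot.root (minpoly F X)) = X := by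
      rw [AdjoinRoot.root, hφ, aeval_X]
    rw [this]
    rfl
  have htop : Algebra.adjoin F {AdjoinRoot.root (minpoly F X)} = ⊤ :=
    AdjoinRoot.adjoinRoot_eq_top
  have hfin : Module.Finite F (AdjoinRoot (minpoly F X)) :=
    (AdjoinRoot.powerBasis hirr.ne_zero).finite
  have hE : ¬ p ∣ Nat.card (AdjoinRoot (minpoly F X)) := by
    rw [Module.natCard_eq_pow_finrank (K := F)]
    exact fun h => hpF (hp.dvd_of_dvd_pow h)
  haveI : Finite (AdjoinRoot (minpoly F X)) := Module.finite_of_finite F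
  haveI : FiniteDimensional (AdjoinRoot (minpoly F X)) V := Module.Finite.of_finite
  have hpow : ∀ (m : ℕ) (v : V), (x ^ m) v = AdjoinRoot.root (minpoly F X) ^ m • v := by
    intro m
    induction m with
    | zero => intro v; rw [pow_zero, pow_zero, one_smul]; rfl
    | succ m ih =>
      intro v
      rw [pow_succ, LinearEquiv.mul_apply, ih, hroot, ← mul_smul, pow_succ]
  obtain ⟨v₀, hv₀⟩ := exists_ne (0 : V)
  have hζn : AdjoinRoot.root (minpoly F X) ^ p ^ n = 1 := by
    have h2 := hpow (p ^ n) v₀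
    rw [hn] at h2
    have h3 : (AdjoinRoot.root (minpoly F X) ^ p ^ n - 1) • v₀ = 0 := by
      rw [sub_smul, one_smul, ← h2]
      exact sub_self _
    exact sub_eq_zero.1 ((smul_eq_zero.1 h3).resolve_right hv₀)
  have hζ0 : AdjoinRoot.root (minpoly F X) ≠ 0 := by
    intro h
    rw [h, zero_pow (pow_ne_zero _ hp.ne_zero)] at hζn
    exact zero_ne_one hζn
  have hζ1 : AdjoinRoot.root (minpoly F X) ≠ 1 := by
    intro h
    apply hx1
    apply LinearEquiv.ext
    intro v
    rw [hroot, h, one_smul]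
    rfl
  refine ⟨sys x _ hroot htop hp hE, sys_mem x _ hroot htop hp hE hW h0 h1 hU, ?_⟩
  intro U hU hU0
  obtain ⟨z, hz1, hz2, hz3, ⟨v, hv⟩, w, hw0, hw⟩ := sys_z x _ hroot htop hp hE hζn hζ1 hζ0 hU hU0
  refine ⟨z, hz1, hz2, hz3, fun h hxh hzh => ?_⟩
  have h2 : (((h⁻¹ * (z : V ≃ₗ[F] V) * h).toLinearMap : End F V) - 1) ∈ Submodule.span F
      (Set.range fun q : D => ((q : V ≃ₗ[F] V).toLinearMap : End F V)) :=
    Submodule.sub_mem _ (Submodule.subset_span ⟨⟨_, hzh⟩, rfl⟩)
      (Submodule.subset_span ⟨⟨1, D.one_mem⟩, rfl⟩)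
  have hs : ∀ u : V, (((h⁻¹ * (z : V ≃ₗ[F] V) * h).toLinearMap : End F V) - 1) u =
      h⁻¹ ((z : V ≃ₗ[F] V) (h u)) - u := fun u => rfl
  have hh : ∀ u : V, h (h⁻¹ u) = u := fun u => h.apply_symm_apply u
  rcases hD _ h2 with h3 | h3
  · apply hv
    have h4 := h3 (h⁻¹ v)
    rw [hs, hh, sub_eq_zero] at h4
    exact (h⁻¹).injective h4
  · apply hw0
    have h4 := h3 (h⁻¹ w) (by rw [hs, hh, hw, sub_self])
    rw [← hh w, h4, map_zero]

end Main

end Vale.Agent.P180.H337.Ecu
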