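import Vale.Agent.P180.H337.Zed
import Vale.Agent.P180.R2.H799.BNQ

/-!
P180 theorem B, block B2b (helper337): the centraliser of an element generating a field is a
general linear group over this field; its parabolic system.
-/

set_option linter.all false

namespace Vale.Agent.P180.H337.Ecu

open Module Vale.Agent.P180.R2.H854 Vale.Agent.P180.R2.H854.GL Vale.Agent.P180.R2.H799

section Sys

variable {F E V : Type*} [Field F] [Field E] [Algebra F E] [AddCommGroup V] [Module F V]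
  [Module E V] [IsScalarTower F E V]

/-- commuting with `ζ` implies commuting with the field generated by `ζ` -/
theorem smul_comm_of {ζ : E} (hg : Algebra.adjoin F {ζ} = ⊤) {g : V ≃ₗ[F] V}
    (h : ∀ v, g (ζ • v) = ζ • g v) (e : E) (v : V) : g (e • v) = e • g v := by
  have he : e ∈ Algebra.adjoin F {ζ} := by rw [hg]; trivial
  induction he using Algebra.adjoin_induction generalizing v with
  | mem y hy =>
    rw [Set.mem_singleton_iff] at hy
    rw [hy]
    exact h v
  | algebraMap r => rw [algebraMap_smul, map_smul, algebraMap_smul]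
  | add y z _ _ hy hz => rw [add_smul, map_add, hy, hz, add_smul]
  | mul y z _ _ hy hz => rw [mul_smul, hy, hz, mul_smul]

/-- a submodule stable under `ζ` is stable under the field generated by `ζ` -/
theorem smul_mem_of {ζ : E} (hg : Algebra.adjoin F {ζ} = ⊤) {W : Submodule F V}
    (h : ∀ w ∈ W, ζ • w ∈ W) (e : E) : ∀ w ∈ W, e • w ∈ W := by
  have he : e ∈ Algebra.adjoin F {ζ} := by rw [hg]; trivial
  induction he using Algebra.adjoin_induction with
  | mem y hy =>
    rw [Set.mem_singleton_iff] at hy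
    rw [hy]
    exact h
  | algebraMap r =>
    intro w hw
    rw [algebraMap_smul]
    exact W.smul_mem r hw
  | add y z _ _ hy hz =>
    intro w hw
    rw [add_smul]
    exact W.add_mem (hy w hw) (hz w hw)
  | mul y z _ _ hy hz =>
    intro w hw
    rw [mul_smul]
    exact hy _ (hz w hw)

/-- the submodule over the larger field -/
def subE {ζ : E} (hg : Algebra.adjoin F {ζ} = ⊤) (W : Submodule F V)
    (h : ∀ w ∈ W, ζ • w ∈ W) : Submodule E V where
  carrier := W
  add_mem' := W.add_mem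
  zero_mem' := W.zero_mem
  smul_mem' e w hw := smul_mem_of hg h e w hw

theorem mem_subE {ζ : E} (hg : Algebra.adjoin F {ζ} = ⊤) {W : Submodule F V}
    (h : ∀ w ∈ W, ζ • w ∈ W) {v : V} : v ∈ subE hg W h ↔ v ∈ W := Iff.rfl

variable (x : V ≃ₗ[F] V) (ζ : E) (hx : ∀ v, x v = ζ • v)

/-- the linear automorphisms over the larger field, in the centraliser -/
def pie : (V ≃ₗ[E] V) →* Subgroup.centralizer ({x} : Set (V ≃ₗ[F] V)) where
  toFun g := ⟨g.restrictScalars F, by
    rw [Subgroup.mem_centralizer_singleton_iff]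
    apply LinearEquiv.ext
    intro v
    change g (x v) = x (g v)
    rw [hx, hx, map_smul]⟩
  map_one' := rfl
  map_mul' g h := rfl

theorem pie_apply (g : V ≃ₗ[E] V) (v : V) : (pie x ζ hx g : V ≃ₗ[F] V) v = g v := rfl

theorem pie_injective : Function.Injective (pie x ζ hx) := by
  intro g h hgh
  apply LinearEquiv.ext
  intro v
  have := congrArg (fun y : Subgroup.centralizer ({x} : Set (V ≃ₗ[F] V)) => (y : V ≃ₗ[F] V) v) hgh
  exact this

theorem pie_surjective (hg : Algebra.adjoin F {ζ} = ⊤) : Function.Surjective (pie x ζ hx) := by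
  intro g
  have h1 : (g : V ≃ₗ[F] V) * x = x * g := Subgroup.mem_centralizer_singleton_iff.1 g.2
  have h2 : ∀ v, (g : V ≃ₗ[F] V) (ζ • v) = ζ • (g : V ≃ₗ[F] V) v := by
    intro v
    have h3 := LinearEquiv.congr_fun h1 v
    change (g : V ≃ₗ[F] V) (x v) = x ((g : V ≃ₗ[F] V) v) at h3
    rw [hx, hx] at h3
    exact h3
  refine ⟨{ (g : V ≃ₗ[F] V).toAddEquiv with
    map_smul' := fun e v => smul_comm_of hg h2 e v }, ?_⟩
  apply Subtype.ext
  apply LinearEquiv.ext
  intro v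
  rfl

variable [FiniteDimensional E V]

/-- **The parabolic system of the centraliser.** -/
noncomputable def sys (hg : Algebra.adjoin F {ζ} = ⊤) {p : ℕ} (hp : p.Prime)
    (hE : ¬ p ∣ Nat.card E) : ParSys p (Subgroup.centralizer ({x} : Set (V ≃ₗ[F] V))) :=
  BN.imageSys (pie x ζ hx) (glSys E V p hp hE) (pie_surjective x ζ hx hg)
    (by rw [(MonoidHom.ker_eq_bot_iff _).2 (pie_injective x ζ hx)]; exact bot_le)
    (fun U _ => by
      rw [(MonoidHom.ker_eq_bot_iff _).2 (pie_injective x ζ hx), Subgroup.card_bot]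
      exact Nat.coprime_one_right _)

theorem sys_z (hg : Algebra.adjoin F {ζ} = ⊤) {p : ℕ} (hp : p.Prime)
    (hE : ¬ p ∣ Nat.card E) {m : ℕ} (hm : ζ ^ p ^ m = 1) (h1 : ζ ≠ 1) (h0 : ζ ≠ 0)
    {U : Subgroup (Subgroup.centralizer ({x} : Set (V ≃ₗ[F] V)))}
    (hU : U ∈ (sys x ζ hx hg hp hE).car) (hU0 : U ≠ ⊥) :
    ∃ z ∈ Subgroup.normalizer (U : Set (Subgroup.centralizer ({x} : Set (V ≃ₗ[F] V)))),
      (∀ y ∈ Subgroup.normalizer (U : Set (Subgroup.centralizer ({x} : Set (V ≃ₗ[F] V)))),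
        z * y * z⁻¹ * y⁻¹ ∈ U) ∧ (∃ m : ℕ, z ^ p ^ m = 1) ∧
      (∃ v, (z : V ≃ₗ[F] V) v ≠ v) ∧ ∃ v, v ≠ 0 ∧ (z : V ≃ₗ[F] V) v = v := by
  obtain ⟨_, ⟨𝓕, rfl⟩, rfl⟩ := hU
  have h2 : VG 𝓕 ≠ ⊥ := by
    intro h
    apply hU0
    rw [h, Subgroup.map_bot]
  obtain ⟨z, hz1, hz2, hz3, ⟨v, hv⟩, w, hw0, hw⟩ := exists_zed h2 h1 hm h0
  have hk : (pie x ζ hx).ker ≤ Subgroup.center _ := by
    rw [(MonoidHom.ker_eq_bot_iff _).2 (pie_injective x ζ hx)]; exact bot_le
  have hN : Subgroup.normalizer (((VG 𝓕).map (pie x ζ hx) : Subgroup _) :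
      Set (Subgroup.centralizer ({x} : Set (V ≃ₗ[F] V)))) = (PG 𝓕).map (pie x ζ hx) := by
    rw [BN.normalizer_image (pie x ζ hx) (pie_surjective x ζ hx hg) hk
      (by
        rw [(MonoidHom.ker_eq_bot_iff _).2 (pie_injective x ζ hx), Subgroup.card_bot]
        exact Nat.coprime_one_right _), normalizer_VG]
  rw [hN]
  refine ⟨pie x ζ hx z, ⟨z, hz1, rfl⟩, ?_, ⟨m, ?_⟩, ⟨v, hv⟩, w, hw0, hw⟩
  · rintro _ ⟨y, hy, rfl⟩
    refine ⟨z * y * z⁻¹ * y⁻¹, hz2 y hy, ?_⟩
    simp only [map_mul, map_inv]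
  · rw [← map_pow, hz3, map_one]

/-- the flag of one subspace -/
def flag1 (W : Submodule E V) : Flag E V where
  car i := if i = 0 then ⊥ else if i = 1 then W else ⊤
  mono := by
    intro i j hij
    dsimp only
    split_ifs <;> first | exact le_refl _ | exact bot_le | exact le_top | (exfalso; omega)
  zero := rfl
  top := ⟨2, rfl⟩

theorem mem_VG_flag1 {W : Submodule E V} {g : V ≃ₗ[E] V} :
    g ∈ VG (flag1 W) ↔ (∀ w ∈ W, g w = w) ∧ ∀ v, g v - v ∈ W := by
  constructor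
  · intro h
    refine ⟨fun w hw => ?_, fun v => ?_⟩
    · have := h 0 w hw
      rw [(flag1 W).zero, Submodule.mem_bot] at this
      exact sub_eq_zero.1 this
    · exact h 1 v trivial
  · rintro ⟨h1, h2⟩ i v hv
    rcases i with _ | _ | i
    · rw [(flag1 W).zero, Submodule.mem_bot, h1 v hv, sub_self]
    · exact h2 v
    · trivial

theorem VG_flag1_ne {W : Submodule E V} (h0 : W ≠ ⊥) (h1 : W ≠ ⊤) : VG (flag1 W) ≠ ⊥ := by
  obtain ⟨w, hw, hw0⟩ := (Submodule.ne_bot_iff _).1 h0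
  obtain ⟨f, hf0, hf⟩ := Submodule.exists_le_ker_of_lt_top W (lt_top_iff_ne_top.2 h1)
  have ha : LinearMap.smulRight f w ∈ Jr (flag1 W) := by
    intro i v hv
    rw [LinearMap.smulRight_apply]
    rcases i with _ | _ | i
    · have : f v = 0 := hf hv
      rw [this, zero_smul]
      exact Submodule.zero_mem _
    · exact W.smul_mem _ hw
    · trivial
  intro h
  have h2 : oneAddG _ ha ∈ VG (flag1 W) := oneAddG_mem _ ha
  rw [h, Subgroup.mem_bot] at h2
  apply hf0
  ext v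
  have h3 := congrArg (fun g : V ≃ₗ[E] V => tE g v) h2
  simp only [tE_oneAddG, tE_one] at h3
  rw [LinearMap.add_apply, LinearMap.smulRight_apply] at h3
  have h4 : f v • w = 0 := by
    have := add_left_cancel (h3.trans (add_zero _).symm)
    exact this
  rcases smul_eq_zero.1 h4 with h5 | h5
  · rw [h5]; rfl
  · exact absurd h5 hw0

/-- **The centraliser of `x` in the unipotent radical of a stable subspace is in the system.** -/
theorem sys_mem (hg : Algebra.adjoin F {ζ} = ⊤) {p : ℕ} (hp : p.Prime)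
    (hE : ¬ p ∣ Nat.card E) {W : Submodule F V} (hW : ∀ w ∈ W, x w ∈ W)
    (h0 : W ≠ ⊥) (h1 : W ≠ ⊤) {U : Subgroup (Subgroup.centralizer ({x} : Set (V ≃ₗ[F] V)))}
    (hU : ∀ g : Subgroup.centralizer ({x} : Set (V ≃ₗ[F] V)), g ∈ U ↔
      (∀ w ∈ W, (g : V ≃ₗ[F] V) w = w) ∧ ∀ v, (g : V ≃ₗ[F] V) v - v ∈ W) :
    U ∈ (sys x ζ hx hg hp hE).car ∧ U ≠ ⊥ := by
  have hW' : ∀ w ∈ W, ζ • w ∈ W := fun w hw => by rw [← hx]; exact hW w hw
  have h2 : subE hg W hW' ≠ ⊥ := by
    obtain ⟨w, hw, hw0⟩ := (Submodule.ne_bot_iff _).1 h0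
    exact (Submodule.ne_bot_iff _).2 ⟨w, hw, hw0⟩
  have h3 : subE hg W hW' ≠ ⊤ := by
    intro h
    apply h1
    rw [eq_top_iff]
    intro v _
    have : v ∈ subE hg W hW' := by rw [h]; trivial
    exact this
  have e : U = (VG (flag1 (subE hg W hW'))).map (pie x ζ hx) := by
    ext g
    obtain ⟨g, rfl⟩ := pie_surjective x ζ hx hg g
    rw [hU]
    constructor
    · rintro ⟨h4, h5⟩
      exact ⟨g, mem_VG_flag1.2 ⟨h4, h5⟩, rfl⟩
    · rintro ⟨g', h4, h5⟩
      rw [pie_injective x ζ hx h5] at h4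
      have h6 := (mem_VG_flag1 (E := E)).1 h4
      exact h6
  refine ⟨⟨_, ⟨flag1 (subE hg W hW'), rfl⟩, e.symm⟩, ?_⟩
  rw [e]
  intro h
  exact VG_flag1_ne h2 h3 ((Subgroup.map_eq_bot_iff_of_injective _ (pie_injective x ζ hx)).1 h)

end Sys

end Vale.Agent.P180.H337.Ecu
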