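import Vale.Agent.P180.H337.Cub
import Vale.Agent.P180.H568.HR

/-!
P180 theorem B (helper337): the general linear half of B2b in the form of `GLHalf`.
-/

set_option linter.all false

namespace Vale.Agent.P180.H337.Ecu

open Module Subgroup Vale.Agent.P180 Vale.Agent.P180.R2.H799
  Vale.Agent.P180.H337 Vale.Agent.P180.H386
open Vale.Agent.P180.H393 (PB UB sk sk_apply)
open Vale.Agent.P180.H951 (HomOn)

/-- **(B2b-ii)** -/
theorem glHalf (p : ℕ) [hp : Fact p.Prime] (F : Type) [Field F] [Finite F] :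
    Vale.Agent.P180.H568.GLHalf p F := by
  intro hpF A B _ _ _ _ _ _ hA hB R hRp hRa hR x hx hx1 hxp hex
  obtain ⟨h, hh⟩ := hex
  have hnA : Nontrivial A := Module.finrank_pos_iff.1 hA
  have hnB : Nontrivial B := Module.finrank_pos_iff.1 hB
  have h0 : sB F A B ≠ ⊥ := by
    obtain ⟨b, hb⟩ := exists_ne (0 : B)
    exact (Submodule.ne_bot_iff _).2 ⟨(0, b), rfl, fun h => hb (congrArg Prod.snd h)⟩
  have h1 : sB F A B ≠ ⊤ := by
    obtain ⟨a, ha⟩ := exists_ne (0 : A)
    intro h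
    have : ((a, 0) : A × B) ∈ sB F A B := by rw [h]; trivial
    exact ha this
  obtain ⟨𝒱, ⟨h2, h3⟩, h4⟩ := exists_sys (V := A × B) hp.out hpF (hm_of hR) hx1 hxp hh
    (PB_stable hx) h0 h1 (U := (cU (UB (F := F) A B) x).subgroupOf
      (centralizer ({x} : Set ((A × B) ≃ₗ[F] (A × B))))) (fun y => by
        rw [Subgroup.mem_subgroupOf, ← mem_UB_iff']
        constructor
        · intro h; exact h.1
        · intro h; exact ⟨h, y.2⟩)
  exact ⟨𝒱, h2, h3, h4⟩

end Vale.Agent.P180.H337.Ecu
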