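import Vale.Agent.P180.R2.H854.FlagGL

/-!
P180 theorem B, block B2b (helper337): the parabolic subgroups of the general linear group contain
central `p`-elements modulo the unipotent radical with many fixed vectors.
-/

set_option linter.all false

namespace Vale.Agent.P180.H337.Ecu

open Module Vale.Agent.P180.R2.H854 Vale.Agent.P180.R2.H854.GL

section Zed

variable {E V : Type*} [Field E] [AddCommGroup V] [Module E V]

/-- a projection onto a subspace -/
theorem exists_proj (W : Submodule E V) :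
    ∃ P : End E V, (∀ v, P v ∈ W) ∧ ∀ w ∈ W, P w = w := by
  obtain ⟨g, hg⟩ := LinearMap.exists_leftInverse_of_injective W.subtype
    (LinearMap.ker_eq_bot.2 W.injective_subtype)
  refine ⟨W.subtype ∘ₗ g, fun v => (g v).2, fun w hw => ?_⟩
  have h := LinearMap.congr_fun hg ⟨w, hw⟩
  exact congrArg Subtype.val h

/-- `ζ` on the image of the projection and `1` on its kernel -/
def zed (P : End E V) (hP : ∀ v, P (P v) = P v) (ζ : E) (hζ : ζ ≠ 0) : V ≃ₗ[E] V where
  toFun v := v + (ζ - 1) • P v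
  map_add' v w := by rw [map_add, smul_add]; abel
  map_smul' c v := by
    rw [map_smul, RingHom.id_apply, smul_add, smul_comm c]
  invFun v := v + (ζ⁻¹ - 1) • P v
  left_inv v := by
    simp only [map_add, map_smul, hP]
    have h : (ζ - 1) + (ζ⁻¹ - 1) * (1 + (ζ - 1)) = 0 := by field_simp; ring
    have : v + (ζ - 1) • P v + (ζ⁻¹ - 1) • (P v + (ζ - 1) • P v) =
        v + ((ζ - 1) + (ζ⁻¹ - 1) * (1 + (ζ - 1))) • P v := by module
    rw [this, h, zero_smul, add_zero]
  right_inv v := by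
    simp only [map_add, map_smul, hP]
    have h : (ζ⁻¹ - 1) + (ζ - 1) * (1 + (ζ⁻¹ - 1)) = 0 := by field_simp; ring
    have : v + (ζ⁻¹ - 1) • P v + (ζ - 1) • (P v + (ζ⁻¹ - 1) • P v) =
        v + ((ζ⁻¹ - 1) + (ζ - 1) * (1 + (ζ⁻¹ - 1))) • P v := by module
    rw [this, h, zero_smul, add_zero]

theorem zed_apply (P : End E V) (hP : ∀ v, P (P v) = P v) (ζ : E) (hζ : ζ ≠ 0) (v : V) :
    zed P hP ζ hζ v = v + (ζ - 1) • P v := rfl

theorem zed_pow (P : End E V) (hP : ∀ v, P (P v) = P v) (ζ : E) (hζ : ζ ≠ 0) (n : ℕ) (v : V) :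
    (zed P hP ζ hζ ^ n) v = v + (ζ ^ n - 1) • P v := by
  induction n with
  | zero => simp
  | succ n ih =>
    rw [pow_succ', LinearEquiv.mul_apply, ih, zed_apply]
    simp only [map_add, map_smul, hP]
    rw [pow_succ]
    module

variable [FiniteDimensional E V]

theorem exists_step {F : Flag E V} (h : VG F ≠ ⊥) : ∃ i, F i ≠ ⊥ ∧ F i ≠ ⊤ := by
  by_contra hcon
  push Not at hcon
  apply h
  rw [eq_bot_iff]
  intro g hg
  rw [Subgroup.mem_bot]
  classical
  have hN := F.top
  have h1 := Nat.find_spec hN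
  rcases hj : Nat.find hN with _ | i
  · rw [hj, F.zero] at h1
    apply LinearEquiv.ext
    intro v
    have hv : ∀ v : V, v = 0 := fun v => by
      have : v ∈ (⊤ : Submodule E V) := trivial
      rw [← h1] at this
      exact (Submodule.mem_bot E).1 this
    rw [hv (g v), hv ((1 : V ≃ₗ[E] V) v)]
  · rw [hj] at h1
    have h2 : F i ≠ ⊤ := fun h => Nat.find_min hN (m := i) (by omega) h
    have h3 : F i = ⊥ := by
      by_contra h4
      exact h2 (hcon i h4)
    apply LinearEquiv.ext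
    intro v
    have h5 := hg i v (by rw [h1]; trivial)
    rw [h3, Submodule.mem_bot, sub_eq_zero] at h5
    exact h5

/-- **The element `z`.** -/
theorem exists_zed {F : Flag E V} (h : VG F ≠ ⊥) {ζ : E} (hζ : ζ ≠ 1) {n : ℕ}
    (hn : ζ ^ n = 1) (h0 : ζ ≠ 0) : ∃ z ∈ PG F, (∀ y ∈ PG F, z * y * z⁻¹ * y⁻¹ ∈ VG F) ∧
      z ^ n = 1 ∧ (∃ v, z v ≠ v) ∧ ∃ v, v ≠ 0 ∧ z v = v := by
  obtain ⟨j, hj0, hj1⟩ := exists_step h
  obtain ⟨P, hP1, hP2⟩ := exists_proj (F j)
  have hP : ∀ v, P (P v) = P v := fun v => hP2 _ (hP1 v)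
  have hPm : ∀ i, ∀ v ∈ F i, P v ∈ F i := by
    intro i v hv
    rcases le_total j i with hji | hij
    · exact F.mono hji (hP1 v)
    · rw [hP2 v (F.mono hij hv)]
      exact hv
  have hz : zed P hP ζ h0 ∈ PG F := by
    intro i v hv
    rw [zed_apply]
    exact (F i).add_mem hv ((F i).smul_mem _ (hPm i v hv))
  refine ⟨zed P hP ζ h0, hz, ?_, ?_, ?_, ?_⟩
  · intro y hy i u hu
    set z := zed P hP ζ h0 with hzdef
    set w := (z⁻¹ * y⁻¹) u with hw
    have hwF : w ∈ F (i + 1) := by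
      have := (PG F).mul_mem ((PG F).inv_mem hz) ((PG F).inv_mem hy)
      exact this (i + 1) u hu
    have hu' : u = y (z w) := by
      rw [hw, ← LinearEquiv.mul_apply, ← LinearEquiv.mul_apply]
      have : y * z * (z⁻¹ * y⁻¹) = 1 := by group
      rw [this]
      rfl
    have h1 : (z * y * z⁻¹ * y⁻¹) u = z (y w) := by
      rw [mul_assoc, LinearEquiv.mul_apply, ← hw, LinearEquiv.mul_apply]
    rw [h1, hu', zed_apply, zed_apply, map_add, map_smul]
    have h2 : y w + (ζ - 1) • P (y w) - (y w + (ζ - 1) • y (P w)) =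
        (ζ - 1) • (P (y w) - y (P w)) := by module
    rw [h2]
    apply (F i).smul_mem
    rcases le_or_gt j i with hji | hij
    · exact (F i).sub_mem (F.mono hji (hP1 _)) (F.mono hji (hy j _ (hP1 _)))
    · have h3 : w ∈ F j := F.mono hij hwF
      rw [hP2 w h3, hP2 _ (hy j w h3), sub_self]
      exact (F i).zero_mem
  · apply LinearEquiv.ext
    intro v
    rw [zed_pow, hn, sub_self, zero_smul, add_zero]
    rfl
  · obtain ⟨w, hw, hw0⟩ := (Submodule.ne_bot_iff _).1 hj0
    refine ⟨w, ?_⟩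
    rw [zed_apply, hP2 w hw]
    intro h2
    have h3 : (ζ - 1) • w = 0 := by
      have := add_left_cancel (h2.trans (add_zero w).symm)
      exact this
    rcases smul_eq_zero.1 h3 with h4 | h4
    · exact hζ (sub_eq_zero.1 h4)
    · exact hw0 h4
  · obtain ⟨c, hc⟩ : ∃ c, c ∉ F j := by
      by_contra hcon
      push Not at hcon
      exact hj1 (eq_top_iff.2 fun x _ => hcon x)
    refine ⟨c - P c, ?_, ?_⟩
    · intro h2
      apply hc
      rw [sub_eq_zero.1 h2]
      exact hP1 c
    · rw [zed_apply, map_sub, hP, sub_self, smul_zero, add_zero]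

end Zed

end Vale.Agent.P180.H337.Ecu
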